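import Vale.Agent.P111.SY.Core2

/-! The core estimate for vector valued coefficients, final form. -/

namespace Vale.Agent.P111.SY

open Finset Vale.Agent.P111 Vale.Agent.P111.TI

/-- Exponentials beat polynomials. -/
theorem exists_large (q s K : ℝ) (hq : 0 < q) :
    ∃ n : ℕ, 1 ≤ n ∧ K * (n:ℝ) ^ s < (2:ℝ) ^ ((n:ℝ) / q) := by
  have hb : 0 < Real.log 2 / q := div_pos (Real.log_pos (by norm_num)) hq
  have h1 := (isLittleO_rpow_exp_pos_mul_atTop s hb).bound (c := (|K| + 1)⁻¹) (by positivity)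
  have h2 := (h1.and (Filter.eventually_ge_atTop (1:ℝ)))
  obtain ⟨x₀, hx₀⟩ := Filter.eventually_atTop.mp h2
  obtain ⟨n, hn⟩ := exists_nat_ge (max x₀ 1)
  obtain ⟨h3, h4⟩ := hx₀ n ((le_max_left _ _).trans hn)
  refine ⟨n, by exact_mod_cast h4, ?_⟩
  have hn0 : (0:ℝ) < n := by linarith
  rw [Real.norm_of_nonneg (by positivity), Real.norm_of_nonneg (by positivity)] at h3
  have h5 : Real.exp (Real.log 2 / q * n) = (2:ℝ) ^ ((n:ℝ) / q) := by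
    rw [Real.rpow_def_of_pos (by norm_num)]
    congr 1
    ring
  rw [h5] at h3
  have h6 : (|K| + 1) * (n:ℝ) ^ s ≤ (2:ℝ) ^ ((n:ℝ) / q) := by
    calc (|K| + 1) * (n:ℝ) ^ s ≤ (|K| + 1) * ((|K| + 1)⁻¹ * (2:ℝ) ^ ((n:ℝ) / q)) := by gcongr
      _ = _ := by
        rw [← mul_assoc, mul_inv_cancel₀ (by positivity), one_mul]
  have h7 : 0 < (n:ℝ) ^ s := Real.rpow_pos_of_pos hn0 s
  nlinarith [le_abs_self K]

/-- The vector valued core: for suitable numbers of variables the hypotheses are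
contradictory. -/
theorem vcore (q r C : ℝ) (hq : 2 ≤ q) (hr : 2 ≤ r) (hC : 1 ≤ C) : ∃ M n : ℕ, M ≠ 0 ∧ 1 ≤ n ∧
    ∀ (κ : Finset (Fin M) → Finset (Fin (2 ^ n)) → ℝ) (c : Finset (Fin M) → ℝ),
      ¬ VHyp κ c (C * (M : ℝ) ^ (1 - 1 / r))
        (C * (M : ℝ) ^ (1 - 1 / r) * (C * ((2 ^ n : ℕ) : ℝ) ^ (1 - 1 / q)))
        (C * (M : ℝ) ^ (1 - 1 / r) * (C * ((2 ^ n : ℕ) : ℝ) ^ (1 - 1 / q))) := by
  have hq0 : 0 < q := by linarith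
  have hr0 : 0 < r := by linarith
  have hC0 : 0 < C := by linarith
  set K₀ : ℝ := 42024 * C with hK₀
  have hK₀1 : 1 ≤ K₀ := by linarith
  set K₁ : ℝ := K₀ ^ r + 2 with hK₁
  obtain ⟨n, hn1, hn⟩ := exists_large q (4 * r) (48 * C ^ 2 * K₁ ^ 2) hq0
  have hn1' : (1:ℝ) ≤ n := by exact_mod_cast hn1
  have hn0 : (0:ℝ) < n := by linarith
  set M : ℕ := ⌈(K₀ * (n:ℝ) ^ 2) ^ r⌉₊ with hM
  have hbase : 1 ≤ K₀ * (n:ℝ) ^ 2 := one_le_mul_of_one_le_of_one_le hK₀1 (one_le_pow₀ hn1')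
  have hMlow : (K₀ * (n:ℝ) ^ 2) ^ r ≤ M := Nat.le_ceil _
  have hM1 : (1:ℝ) ≤ M := (Real.one_le_rpow hbase hr0.le).trans hMlow
  have hM0 : (0:ℝ) < M := by linarith
  have hMup : (M:ℝ) ≤ K₁ * (n:ℝ) ^ (2 * r) := by
    have h1 : (M:ℝ) < (K₀ * (n:ℝ) ^ 2) ^ r + 1 := Nat.ceil_lt_add_one (by positivity)
    have h2 : (K₀ * (n:ℝ) ^ 2) ^ r = K₀ ^ r * (n:ℝ) ^ (2 * r) := by
      rw [Real.mul_rpow (by positivity) (by positivity), ← Real.rpow_natCast,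
        ← Real.rpow_mul hn0.le]
      norm_num
    have h3 : 1 ≤ (n:ℝ) ^ (2 * r) := Real.one_le_rpow hn1' (by positivity)
    rw [h2] at h1
    rw [hK₁, add_mul]
    linarith
  refine ⟨M, n, ?_, hn1, ?_⟩
  · intro h0
    rw [h0] at hM1
    norm_num at hM1
  intro κ c h
  set b₁ : ℝ := C * (M : ℝ) ^ (1 - 1 / r) with hb₁
  set b₂ : ℝ := C * ((2 ^ n : ℕ) : ℝ) ^ (1 - 1 / q) with hb₂
  have hb₁0 : 0 ≤ b₁ := by positivity
  have hb₂0 : 0 ≤ b₂ := by positivity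
  have hnum := h.numerical hn1
  rw [Fintype.card_fin] at hnum
  -- first term
  have hfirst : 103 * n * (51 * n * b₁) ≤ M / 8 := by
    have e2 : K₀ * (n:ℝ) ^ 2 ≤ (M:ℝ) ^ (1 / r) := by
      calc K₀ * (n:ℝ) ^ 2 = ((K₀ * (n:ℝ) ^ 2) ^ r) ^ (1 / r) := by
            rw [← Real.rpow_mul (by positivity), mul_one_div_cancel hr0.ne', Real.rpow_one]
        _ ≤ _ := Real.rpow_le_rpow (by positivity) hMlow (by positivity)
    have e3 : (M:ℝ) ^ (1 - 1 / r) * (M:ℝ) ^ (1 / r) = M := by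
      rw [← Real.rpow_add hM0]
      simp
    calc 103 * n * (51 * n * b₁) = (M : ℝ) ^ (1 - 1 / r) * (K₀ * (n:ℝ) ^ 2) / 8 := by
          rw [hb₁, hK₀]; ring
      _ ≤ (M : ℝ) ^ (1 - 1 / r) * (M:ℝ) ^ (1 / r) / 8 := by gcongr
      _ = M / 8 := by rw [e3]
  -- second term
  have hb₁M : b₁ ≤ C * M := by
    rw [hb₁]
    refine mul_le_mul_of_nonneg_left ?_ hC0.le
    calc (M : ℝ) ^ (1 - 1 / r) ≤ (M : ℝ) ^ (1:ℝ) :=
          Real.rpow_le_rpow_of_exponent_le hM1 (by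
            have : 0 < 1 / r := by positivity
            linarith)
      _ = M := Real.rpow_one _
  have e6 : b₂ = C * (2:ℝ) ^ ((n:ℝ) - n / q) := by
    rw [hb₂]
    push_cast
    rw [← Real.rpow_natCast, ← Real.rpow_mul (by norm_num)]
    congr 2
    ring
  have e7 : (2:ℝ) ^ n = (2:ℝ) ^ ((n:ℝ) - n / q) * (2:ℝ) ^ ((n:ℝ) / q) := by
    rw [← Real.rpow_add (by norm_num), sub_add_cancel, Real.rpow_natCast]
  have hX0 : 0 < (2:ℝ) ^ ((n:ℝ) - n / q) := by positivity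
  have hY0 : 0 < (2:ℝ) ^ ((n:ℝ) / q) := by positivity
  have hratio : b₂ / 2 ^ n = C / (2:ℝ) ^ ((n:ℝ) / q) := by
    rw [e6, e7]
    field_simp
  have hsecond : (2 * (M:ℝ) + 1) * (M * ((b₁ * b₂ + b₁ * b₂) / 2 ^ n)) ≤
      6 * C ^ 2 * M ^ 3 / (2:ℝ) ^ ((n:ℝ) / q) := by
    have e8 : (b₁ * b₂ + b₁ * b₂) / 2 ^ n = 2 * b₁ * (C / (2:ℝ) ^ ((n:ℝ) / q)) := by
      rw [← hratio]; ring
    rw [e8]
    have e9 : 0 ≤ C / (2:ℝ) ^ ((n:ℝ) / q) := by positivity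
    calc (2 * (M:ℝ) + 1) * (M * (2 * b₁ * (C / (2:ℝ) ^ ((n:ℝ) / q))))
        ≤ (3 * M) * (M * (2 * (C * M) * (C / (2:ℝ) ^ ((n:ℝ) / q)))) := by
          have : 2 * (M:ℝ) + 1 ≤ 3 * M := by linarith
          gcongr
      _ = _ := by ring
  have hsmall : 6 * C ^ 2 * M ^ 3 / (2:ℝ) ^ ((n:ℝ) / q) < M / 8 := by
    rw [div_lt_iff₀ hY0]
    have e10 : (M:ℝ) ^ 2 ≤ K₁ ^ 2 * (n:ℝ) ^ (4 * r) := by
      calc (M:ℝ) ^ 2 ≤ (K₁ * (n:ℝ) ^ (2 * r)) ^ 2 := by gcongr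
        _ = K₁ ^ 2 * (n:ℝ) ^ (4 * r) := by
            rw [mul_pow, ← Real.rpow_natCast ((n:ℝ) ^ (2 * r)) 2, ← Real.rpow_mul hn0.le]
            congr 2
            push_cast
            ring
    have e11 : 48 * C ^ 2 * (M:ℝ) ^ 2 < (2:ℝ) ^ ((n:ℝ) / q) := by
      calc 48 * C ^ 2 * (M:ℝ) ^ 2 ≤ 48 * C ^ 2 * (K₁ ^ 2 * (n:ℝ) ^ (4 * r)) := by gcongr
        _ = 48 * C ^ 2 * K₁ ^ 2 * (n:ℝ) ^ (4 * r) := by ring
        _ < _ := hn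
    calc 6 * C ^ 2 * (M:ℝ) ^ 3 = (48 * C ^ 2 * (M:ℝ) ^ 2) * (M / 8) := by ring
      _ < (2:ℝ) ^ ((n:ℝ) / q) * (M / 8) := mul_lt_mul_of_pos_right e11 (by positivity)
      _ = M / 8 * (2:ℝ) ^ ((n:ℝ) / q) := mul_comm _ _
  linarith

end Vale.Agent.P111.SY
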