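import Vale.Agent.P111.TI.Core2

/-! The core estimate for vector valued coefficients, part 1. -/

set_option linter.unusedSectionVars false

namespace Vale.Agent.P111.SY

open Finset Vale.Agent.P111 Vale.Agent.P111.TI

variable {I I' : Type} [Fintype I] [DecidableEq I] [Fintype I'] [DecidableEq I']

/-- The hypotheses of the vector valued core estimate. -/
structure VHyp (κ : Finset I → Finset I' → ℝ) (c : Finset I → ℝ) (b₁ b B : ℝ) : Prop where
  c_even : ∀ T, Even #T → c T = 0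
  κ_even : ∀ T U, Even #U → κ T U = 0
  c_one : ∀ i, c {i} = 1
  κ_one : ∀ T k, κ T {k} = c T
  c_bd : ∀ ω : I → ℤˣ, |∑ T, c T * walsh T ω| ≤ b₁
  κ_bd : ∀ U, ∀ ω : I → ℤˣ, |∑ T, κ T U * walsh T ω| ≤ b
  bd : ∀ A : I → I' → ℤˣ, |∑ T, ∑ U, κ T U * walsh U (fun k => ∏ i ∈ T, A i k)| ≤ B

variable {κ : Finset I → Finset I' → ℝ} {c : Finset I → ℝ} {b₁ b B : ℝ}

theorem VHyp.mix (h : VHyp κ c b₁ b B) (D : (I' → ℤˣ) → ℝ) (hD0 : ∀ ω, 0 ≤ D ω)
    (hD : avg D = 1) :
    |∑ T, ∑ U, κ T U * (avg fun ω => D ω * walsh U ω) ^ #T| ≤ B := by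
  have h1 : ∑ T, ∑ U, κ T U * (avg fun ω => D ω * walsh U ω) ^ #T =
      avg fun A : I → I' → ℤˣ => (∏ i, D (A i)) *
        ∑ T, ∑ U, κ T U * walsh U (fun k => ∏ i ∈ T, A i k) := by
    simp only [Finset.mul_sum]
    rw [avg_sum]
    refine Finset.sum_congr rfl fun T _ => ?_
    rw [avg_sum]
    refine Finset.sum_congr rfl fun U _ => ?_
    rw [← avg_rows D hD T U, ← avg_mul_left]
    exact avg_congr fun A => by ring
  have hDr : (avg fun A : I → I' → ℤˣ => ∏ i, D (A i)) = 1 := by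
    rw [avg_pi_prod (fun _ ω => D ω)]
    simp [hD]
  rw [h1]
  calc |avg fun A : I → I' → ℤˣ => (∏ i, D (A i)) *
        ∑ T, ∑ U, κ T U * walsh U (fun k => ∏ i ∈ T, A i k)|
      ≤ avg fun A : I → I' → ℤˣ => |(∏ i, D (A i)) *
        ∑ T, ∑ U, κ T U * walsh U (fun k => ∏ i ∈ T, A i k)| := abs_avg_le _
    _ ≤ avg fun A : I → I' → ℤˣ => (∏ i, D (A i)) * B := by
        refine avg_mono fun A => ?_
        have h0 : 0 ≤ ∏ i, D (A i) := Finset.prod_nonneg fun i _ => hD0 _
        rw [abs_mul, abs_of_nonneg h0]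
        exact mul_le_mul_of_nonneg_left (h.bd A) h0
    _ = B := by rw [avg_mul_right, hDr, one_mul]

theorem VHyp.power (h : VHyp κ c b₁ b B) {ι : Type*} (s : Finset ι) (γ β : ι → ℝ)
    (hγ : ∑ j ∈ s, |γ j| ≤ 1) (hβ : ∀ j ∈ s, |β j| ≤ 1) :
    |∑ T, ∑ U, κ T U * (∑ j ∈ s, γ j * β j ^ #U) ^ #T| ≤ B := by
  classical
  set σ : ι → ℝ := fun j => if 0 ≤ γ j then β j else - β j with hσ
  have hσ1 : ∀ j ∈ s, |σ j| ≤ 1 := by
    intro j hj
    simp only [hσ]
    split_ifs
    · exact hβ j hj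
    · rw [abs_neg]; exact hβ j hj
  set D : (I' → ℤˣ) → ℝ := fun ω => ∑ j ∈ s, |γ j| * dens (σ j) ω + (1 - ∑ j ∈ s, |γ j|) with hD
  have hD0 : ∀ ω, 0 ≤ D ω := by
    intro ω
    simp only [hD]
    have : 0 ≤ ∑ j ∈ s, |γ j| * dens (σ j) ω :=
      Finset.sum_nonneg fun j hj => mul_nonneg (abs_nonneg _) (dens_nonneg (hσ1 j hj) ω)
    linarith
  have hDw : ∀ U : Finset I', (avg fun ω => D ω * walsh U ω) =
      ∑ j ∈ s, |γ j| * σ j ^ #U + (1 - ∑ j ∈ s, |γ j|) * (if U = ∅ then 1 else 0) := by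
    intro U
    have h1 : ∀ ω, D ω * walsh U ω = ∑ j ∈ s, |γ j| * (dens (σ j) ω * walsh U ω) +
        (1 - ∑ j ∈ s, |γ j|) * walsh U ω := by
      intro ω
      simp only [hD, add_mul, Finset.sum_mul]
      congr 1
      exact Finset.sum_congr rfl fun j _ => by ring
    simp only [h1]
    rw [avg_add, avg_sum, avg_mul_left, avg_walsh]
    congr 1
    refine Finset.sum_congr rfl fun j _ => ?_
    rw [avg_mul_left, avg_dens_walsh]
  have hD1 : avg D = 1 := by
    have := hDw ∅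
    simp only [walsh_empty, mul_one, Finset.card_empty, pow_zero, if_true] at this
    rw [show avg D = avg fun ω => D ω from rfl, this]
    ring
  have hmain := h.mix D hD0 hD1
  have heq : ∑ T, ∑ U, κ T U * (avg fun ω => D ω * walsh U ω) ^ #T =
      ∑ T, ∑ U, κ T U * (∑ j ∈ s, γ j * β j ^ #U) ^ #T := by
    refine Finset.sum_congr rfl fun T _ => ?_
    refine Finset.sum_congr rfl fun U _ => ?_
    rcases Nat.even_or_odd #U with hU | hU
    · rw [h.κ_even T U hU, zero_mul, zero_mul]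
    · congr 2
      rw [hDw U, if_neg (by rintro rfl; simp at hU), mul_zero, add_zero]
      refine Finset.sum_congr rfl fun j _ => ?_
      simp only [hσ]
      split_ifs with h0
      · rw [abs_of_nonneg h0]
      · rw [abs_of_neg (not_le.mp h0), hU.neg_pow]; ring
  rwa [heq] at hmain

/-- The sine estimate. -/
theorem VHyp.sine (h : VHyp κ c b₁ b B) (θ s β : ℝ) (hs : |s| ≤ 1) (hβ : |β| ≤ 1) :
    |∑ T, ∑ U, κ T U * (1 / 4 * Real.sin (θ + s * β ^ #U)) ^ #T| ≤ B := by
  set γ : ℕ → ℝ := fun n =>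
    1 / 4 * ((Complex.exp (θ * Complex.I) * Complex.I ^ n).im * (s ^ n / n.factorial)) with hγ
  have hexp : ∀ y : ℝ, HasSum (fun n : ℕ => γ n * y ^ n) (1 / 4 * Real.sin (θ + s * y)) := by
    intro y
    have h1 : HasSum (fun n : ℕ => (((s * y : ℝ) : ℂ) * Complex.I) ^ n / n.factorial)
        (Complex.exp (((s * y : ℝ) : ℂ) * Complex.I)) := by
      rw [Complex.exp_eq_exp_ℂ]
      exact NormedSpace.expSeries_div_hasSum_exp (((s * y : ℝ) : ℂ) * Complex.I)
    have h2 := (h1.mul_left (Complex.exp (θ * Complex.I)))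
    have h3 := Complex.hasSum_im h2
    rw [← Complex.exp_add] at h3
    have h4 : (Complex.exp (θ * Complex.I + ((s * y : ℝ) : ℂ) * Complex.I)).im =
        Real.sin (θ + s * y) := by
      rw [← add_mul, ← Complex.ofReal_add]
      exact Complex.exp_ofReal_mul_I_im _
    rw [h4] at h3
    have h6 := h3.mul_left (1 / 4)
    have h7 : (fun n : ℕ => γ n * y ^ n) = fun n : ℕ => 1 / 4 *
        (Complex.exp (θ * Complex.I) *
          ((((s * y : ℝ) : ℂ) * Complex.I) ^ n / n.factorial)).im := by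
      funext n
      have h5 : Complex.exp (θ * Complex.I) *
          ((((s * y : ℝ) : ℂ) * Complex.I) ^ n / n.factorial) =
          (Complex.exp (θ * Complex.I) * Complex.I ^ n) *
            (((s * y) ^ n / n.factorial : ℝ) : ℂ) := by
        push_cast
        ring
      rw [h5, Complex.im_mul_ofReal]
      simp only [hγ]
      ring
    rw [h7]
    exact h6
  have hγb : ∀ n, |γ n| ≤ 1 / 4 * (1 ^ n / n.factorial) := by
    intro n
    simp only [hγ]
    rw [abs_mul, abs_mul, abs_of_pos (by norm_num : (0:ℝ) < 1 / 4)]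
    refine mul_le_mul_of_nonneg_left ?_ (by norm_num)
    have h1 : |(Complex.exp (θ * Complex.I) * Complex.I ^ n).im| ≤ 1 := by
      refine (Complex.abs_im_le_norm _).trans ?_
      rw [norm_mul, norm_pow, Complex.norm_I, one_pow, mul_one, Complex.norm_exp_ofReal_mul_I]
    have h2 : |s ^ n / (n.factorial : ℝ)| ≤ 1 ^ n / n.factorial := by
      rw [abs_div, abs_pow, abs_of_pos (by positivity : (0:ℝ) < (n.factorial : ℝ))]
      refine div_le_div_of_nonneg_right ?_ (by positivity)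
      exact pow_le_pow_left₀ (abs_nonneg s) hs n
    calc |(Complex.exp (θ * Complex.I) * Complex.I ^ n).im| * |s ^ n / (n.factorial : ℝ)|
        ≤ 1 * (1 ^ n / n.factorial) := mul_le_mul h1 h2 (abs_nonneg _) zero_le_one
      _ = 1 ^ n / n.factorial := one_mul _
  have hγs : ∀ J : ℕ, ∑ n ∈ Finset.range J, |γ n| ≤ 1 := by
    intro J
    calc ∑ n ∈ Finset.range J, |γ n| ≤ ∑ n ∈ Finset.range J, 1 / 4 * ((1:ℝ) ^ n / n.factorial) :=
          Finset.sum_le_sum fun n _ => hγb n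
      _ = 1 / 4 * ∑ n ∈ Finset.range J, ((1:ℝ) ^ n / n.factorial) := by rw [Finset.mul_sum]
      _ ≤ 1 / 4 * Real.exp 1 := by
          refine mul_le_mul_of_nonneg_left ?_ (by norm_num)
          exact Real.sum_le_exp_of_nonneg zero_le_one J
      _ ≤ 1 := by
          have := Real.exp_one_lt_d9
          linarith
  have hJ : ∀ J : ℕ, |∑ T, ∑ U, κ T U *
      (∑ n ∈ Finset.range J, γ n * (β ^ n) ^ #U) ^ #T| ≤ B := by
    intro J
    refine h.power (Finset.range J) γ (fun n => β ^ n) (hγs J) fun n _ => ?_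
    rw [abs_pow]
    exact pow_le_one₀ (abs_nonneg _) hβ
  have hlim : ∀ U : Finset I', Filter.Tendsto
      (fun J : ℕ => ∑ n ∈ Finset.range J, γ n * (β ^ n) ^ #U) Filter.atTop
      (nhds (1 / 4 * Real.sin (θ + s * β ^ #U))) := by
    intro U
    have := (hexp (β ^ #U)).tendsto_sum_nat
    refine this.congr fun J => ?_
    refine Finset.sum_congr rfl fun n _ => ?_
    rw [← pow_mul, ← pow_mul, mul_comm #U n]
  have hlim2 : Filter.Tendsto (fun J : ℕ => ∑ T, ∑ U, κ T U *
      (∑ n ∈ Finset.range J, γ n * (β ^ n) ^ #U) ^ #T) Filter.atTop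
      (nhds (∑ T, ∑ U, κ T U * (1 / 4 * Real.sin (θ + s * β ^ #U)) ^ #T)) := by
    refine tendsto_finsetSum _ fun T _ => ?_
    refine tendsto_finsetSum _ fun U _ => Filter.Tendsto.const_mul _ ?_
    exact (hlim U).pow _
  exact le_of_tendsto' hlim2.abs hJ

/-- shifted evaluation of `QQ` -/
theorem eval_shift (d : Finset I → ℝ) (θ t : ℝ) :
    Complex.exp (θ * Complex.I) ^ (Fintype.card I) *
      ((∑ T, d T * (1 / 4 * Real.sin (θ + t)) ^ #T : ℝ) : ℂ) =
      ∑ j ∈ range (2 * Fintype.card I + 1), (QQ d).coeff j *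
        (Complex.exp (θ * Complex.I) ^ j *
          Complex.exp (((j - Fintype.card I) * t : ℝ) * Complex.I)) := by
  have h2 := eval_QQ d (θ + t)
  rw [eval_QQ_range] at h2
  have h3 : Complex.exp (((θ + t : ℝ) : ℂ) * Complex.I) =
      Complex.exp (θ * Complex.I) * Complex.exp (t * Complex.I) := by
    rw [← Complex.exp_add]; push_cast; ring_nf
  rw [h3, mul_pow] at h2
  have h4 : Complex.exp (t * Complex.I) ^ (Fintype.card I) ≠ 0 :=
    pow_ne_zero _ (Complex.exp_ne_zero _)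
  apply mul_left_cancel₀ h4
  rw [← mul_assoc, mul_comm (Complex.exp (t * Complex.I) ^ (Fintype.card I))
    (Complex.exp (θ * Complex.I) ^ (Fintype.card I)), ← h2, Finset.mul_sum]
  refine Finset.sum_congr rfl fun j _ => ?_
  have h5 : (Complex.exp (θ * Complex.I) * Complex.exp (t * Complex.I)) ^ j =
      Complex.exp (t * Complex.I) ^ (Fintype.card I) * (Complex.exp (θ * Complex.I) ^ j *
      Complex.exp (((j - Fintype.card I) * t : ℝ) * Complex.I)) := by
    rw [mul_pow, ← Complex.exp_nat_mul, ← Complex.exp_nat_mul, ← Complex.exp_nat_mul,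
      ← Complex.exp_add, ← Complex.exp_add, ← Complex.exp_add]
    congr 1
    push_cast
    ring
  rw [h5]
  ring

/-- The Fourier coefficients of the averaged function are bounded. -/
theorem VHyp.coeff_m (h : VHyp κ c b₁ b B) {s β : ℝ} (hs : |s| ≤ 1) (hβ : |β| ≤ 1) {j : ℕ}
    (hj : j < 2 * Fintype.card I + 1) :
    ‖∑ U, (QQ fun T => κ T U).coeff j *
      Complex.exp (((s * (j - Fintype.card I)) * β ^ #U : ℝ) * Complex.I)‖ ≤ B := by
  refine coeff_le_sup (2 * Fintype.card I + 1)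
    (fun j => ∑ U, (QQ fun T => κ T U).coeff j *
      Complex.exp (((s * (j - Fintype.card I)) * β ^ #U : ℝ) * Complex.I)) B (fun θ => ?_) j hj
  have h1 : ∑ j ∈ range (2 * Fintype.card I + 1), (∑ U, (QQ fun T => κ T U).coeff j *
      Complex.exp (((s * (j - Fintype.card I)) * β ^ #U : ℝ) * Complex.I)) *
        Complex.exp (θ * Complex.I) ^ j =
      Complex.exp (θ * Complex.I) ^ (Fintype.card I) *
        ((∑ T, ∑ U, κ T U * (1 / 4 * Real.sin (θ + s * β ^ #U)) ^ #T : ℝ) : ℂ) := by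
    have h2 : (∑ T, ∑ U, κ T U * (1 / 4 * Real.sin (θ + s * β ^ #U)) ^ #T : ℝ) =
        ∑ U, ∑ T, κ T U * (1 / 4 * Real.sin (θ + s * β ^ #U)) ^ #T := Finset.sum_comm
    rw [h2, Complex.ofReal_sum, Finset.mul_sum]
    simp only [Finset.sum_mul]
    rw [Finset.sum_comm]
    refine Finset.sum_congr rfl fun U _ => ?_
    rw [eval_shift (fun T => κ T U) θ (s * β ^ #U)]
    refine Finset.sum_congr rfl fun j _ => ?_
    have h3 : (((s * (j - Fintype.card I)) * β ^ #U : ℝ) : ℂ) =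
        (((j - Fintype.card I) * (s * β ^ #U) : ℝ) : ℂ) := by
      congr 1
      ring
    rw [h3]
    ring
  rw [h1, norm_mul, norm_pow, Complex.norm_exp_ofReal_mul_I, one_pow, one_mul,
    Complex.norm_real]
  exact h.sine θ s β hs hβ

theorem coeff_QQ_le (d : Finset I → ℝ) {b : ℝ} (hd : ∀ ω : I → ℤˣ, |∑ T, d T * walsh T ω| ≤ b)
    {j : ℕ} (hj : j < 2 * Fintype.card I + 1) : ‖(QQ d).coeff j‖ ≤ b := by
  refine coeff_le_sup (2 * Fintype.card I + 1) (fun j => (QQ d).coeff j) b (fun θ => ?_) j hj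
  rw [← eval_QQ_range, eval_QQ, norm_mul, norm_pow, Complex.norm_exp_ofReal_mul_I, one_pow,
    one_mul, Complex.norm_real]
  refine abs_sum_pow_le hd ?_
  rw [abs_mul, abs_of_pos (by norm_num : (0:ℝ) < 1 / 4)]
  have := Real.abs_sin_le_one θ
  linarith

end Vale.Agent.P111.SY
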