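import Vale.Agent.P111.SY.Core1

/-! The core estimate for vector valued coefficients, part 2. -/

set_option linter.unusedSectionVars false

namespace Vale.Agent.P111.SY

open Finset Vale.Agent.P111 Vale.Agent.P111.TI

private theorem sum_aux (m : ℕ) :
    ∑ k ∈ Finset.range m, (if 3 ≤ k then 8 * Real.pi * (1 / 8 : ℝ) ^ k else 0) ≤ 1 := by
  have h1 : ∀ k : ℕ, (if 3 ≤ k then 8 * Real.pi * (1 / 8 : ℝ) ^ k else 0) ≤
      8 * Real.pi * (1 / 64) * (1 / 2 : ℝ) ^ k := by
    intro k
    split_ifs with hk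
    · have e1 : (1 / 8 : ℝ) ^ k = (1 / 4) ^ k * (1 / 2) ^ k := by
        rw [← mul_pow]; norm_num
      have e2 : (1 / 4 : ℝ) ^ k ≤ (1 / 4) ^ 3 :=
        pow_le_pow_of_le_one (by norm_num) (by norm_num) hk
      rw [e1]
      have e3 : (0:ℝ) ≤ (1 / 2) ^ k := by positivity
      have e4 : (1 / 4 : ℝ) ^ 3 = 1 / 64 := by norm_num
      rw [e4] at e2
      have hp := Real.pi_pos
      calc 8 * Real.pi * ((1 / 4) ^ k * (1 / 2) ^ k) = 8 * Real.pi * (1 / 4) ^ k * (1 / 2) ^ k := by
            ring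
        _ ≤ 8 * Real.pi * (1 / 64) * (1 / 2) ^ k := by gcongr
    · have hp := Real.pi_pos
      positivity
  calc ∑ k ∈ Finset.range m, (if 3 ≤ k then 8 * Real.pi * (1 / 8 : ℝ) ^ k else 0)
      ≤ ∑ k ∈ Finset.range m, 8 * Real.pi * (1 / 64) * (1 / 2 : ℝ) ^ k :=
        Finset.sum_le_sum fun k _ => h1 k
    _ = 8 * Real.pi * (1 / 64) * ∑ k ∈ Finset.range m, (1 / 2 : ℝ) ^ k := by
        rw [Finset.mul_sum]
    _ ≤ 8 * Real.pi * (1 / 64) * 2 := by
        have hp := Real.pi_pos
        have := sum_geometric_two_le m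
        gcongr
    _ ≤ 1 := by
        have := Real.pi_le_four
        linarith

private theorem norm_one_sub_exp_le (y : ℝ) :
    ‖(1 : ℂ) - Complex.exp ((y : ℂ) * Complex.I)‖ ≤ |y| := by
  rw [mul_comm, norm_sub_rev]
  simpa using Real.norm_exp_I_mul_ofReal_sub_one_le (x := y)

/-- Extraction of the first level, complex coefficients. -/
theorem level_extract_complex {n : ℕ} (hn : 1 ≤ n) (a : Finset (Fin (2 ^ n)) → ℂ) (t : ℂ)
    (b m : ℝ) (ha0 : ∀ U, Even #U → a U = 0) (ha1 : ∀ k, a {k} = t) (ha : ∀ U, ‖a U‖ ≤ b)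
    (hm : ∀ j : ℕ, j ≤ n → ‖∑ U, a U *
      Complex.exp (((16 * Real.pi * j * (1 / 16) ^ #U : ℝ) : ℂ) * Complex.I)‖ ≤ m) :
    (2 : ℝ) ^ n * ‖t‖ ≤ b + m := by
  have hb : 0 ≤ b := (norm_nonneg _).trans (ha ∅)
  set zf : ℕ → ℂ := fun k =>
    (1 - Complex.exp (((16 * Real.pi * (1 / 16) ^ k : ℝ) : ℂ) * Complex.I)) / 2 with hzf
  -- the binomial expansion
  have hexp : ∀ k : ℕ, zf k ^ n = ∑ j ∈ Finset.range (n + 1),
      (((-1) ^ j * (n.choose j) / 2 ^ n : ℝ) : ℂ) *
        Complex.exp (((16 * Real.pi * j * (1 / 16) ^ k : ℝ) : ℂ) * Complex.I) := by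
    intro k
    rw [hzf]
    simp only
    rw [div_pow, sub_eq_neg_add, add_pow, Finset.sum_div]
    refine Finset.sum_congr rfl fun j _ => ?_
    rw [one_pow, mul_one, neg_pow, ← Complex.exp_nat_mul]
    push_cast
    have : (j : ℂ) * (16 * (Real.pi : ℂ) * (1 / 16) ^ k * Complex.I) =
        16 * (Real.pi : ℂ) * j * (1 / 16) ^ k * Complex.I := by ring
    rw [this]
    ring
  have hS : ‖∑ U : Finset (Fin (2 ^ n)), a U * zf #U ^ n‖ ≤ m := by
    have h1 : ∑ U : Finset (Fin (2 ^ n)), a U * zf #U ^ n =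
        ∑ j ∈ Finset.range (n + 1), (((-1) ^ j * (n.choose j) / 2 ^ n : ℝ) : ℂ) *
          ∑ U : Finset (Fin (2 ^ n)), a U *
            Complex.exp (((16 * Real.pi * j * (1 / 16) ^ #U : ℝ) : ℂ) * Complex.I) := by
      simp only [hexp, Finset.mul_sum]
      rw [Finset.sum_comm]
      refine Finset.sum_congr rfl fun j _ => Finset.sum_congr rfl fun U _ => ?_
      ring
    rw [h1]
    calc ‖∑ j ∈ Finset.range (n + 1), (((-1) ^ j * (n.choose j) / 2 ^ n : ℝ) : ℂ) *
          ∑ U : Finset (Fin (2 ^ n)), a U *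
            Complex.exp (((16 * Real.pi * j * (1 / 16) ^ #U : ℝ) : ℂ) * Complex.I)‖
        ≤ ∑ j ∈ Finset.range (n + 1), ‖(((-1) ^ j * (n.choose j) / 2 ^ n : ℝ) : ℂ) *
          ∑ U : Finset (Fin (2 ^ n)), a U *
            Complex.exp (((16 * Real.pi * j * (1 / 16) ^ #U : ℝ) : ℂ) * Complex.I)‖ :=
          norm_sum_le _ _
      _ ≤ ∑ j ∈ Finset.range (n + 1), ((n.choose j : ℝ) / 2 ^ n) * m := by
          refine Finset.sum_le_sum fun j hj => ?_
          rw [norm_mul]
          have e1 : ‖(((-1) ^ j * (n.choose j) / 2 ^ n : ℝ) : ℂ)‖ = (n.choose j : ℝ) / 2 ^ n := by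
            rw [Complex.norm_real, Real.norm_eq_abs, abs_div, abs_mul, abs_pow, abs_neg, abs_one,
              one_pow, one_mul, Nat.abs_cast, abs_of_pos (by positivity : (0:ℝ) < 2 ^ n)]
          rw [e1]
          exact mul_le_mul_of_nonneg_left (hm j (by simpa [Nat.lt_succ_iff] using hj))
            (by positivity)
      _ = m := by
          rw [← Finset.sum_mul, ← Finset.sum_div]
          have e2 : ∑ j ∈ Finset.range (n + 1), (n.choose j : ℝ) = 2 ^ n := by
            exact_mod_cast Nat.sum_range_choose n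
          rw [e2, div_self (by positivity), one_mul]
  -- the value at level one
  have hz1 : zf 1 = 1 := by
    rw [hzf]
    simp only
    have : ((16 * Real.pi * (1 / 16) ^ 1 : ℝ) : ℂ) = (Real.pi : ℂ) := by
      rw [pow_one]
      congr 1
      ring
    rw [this, Complex.exp_pi_mul_I]
    norm_num
  have hz : ∀ k : ℕ, ‖zf k‖ ≤ 8 * Real.pi * (1 / 16) ^ k := by
    intro k
    rw [hzf]
    simp only
    rw [norm_div]
    have h2 := norm_one_sub_exp_le (16 * Real.pi * (1 / 16) ^ k)
    have hp := Real.pi_pos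
    rw [abs_of_nonneg (by positivity)] at h2
    have h3 : ‖(2:ℂ)‖ = 2 := by norm_num
    rw [h3, div_le_iff₀ (by norm_num)]
    linarith
  -- the other levels
  have hrest : ∀ U : Finset (Fin (2 ^ n)), ‖a U * zf #U ^ n -
      (if #U = 1 then t else 0)‖ ≤
      b * (if 3 ≤ #U then (8 * Real.pi * (1 / 16) ^ #U) ^ n else 0) := by
    intro U
    by_cases h1 : #U = 1
    · obtain ⟨k, rfl⟩ := Finset.card_eq_one.mp h1
      rw [ha1, h1, hz1]
      simp
    · rw [if_neg h1, sub_zero]
      by_cases h2 : Even #U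
      · rw [ha0 U h2]
        simp only [zero_mul, norm_zero]
        have hp := Real.pi_pos
        split_ifs
        · positivity
        · simp
      · have h3 : 3 ≤ #U := by
          rcases Nat.not_even_iff_odd.mp h2 with ⟨t, ht⟩
          omega
        rw [if_pos h3, norm_mul, norm_pow]
        have h4 := hz #U
        gcongr
        exact ha U
  have hcount : ∑ U : Finset (Fin (2 ^ n)),
      (if 3 ≤ #U then (8 * Real.pi * (1 / 16 : ℝ) ^ #U) ^ n else 0) ≤ 1 := by
    have e1 : ∑ U : Finset (Fin (2 ^ n)),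
        (if 3 ≤ #U then (8 * Real.pi * (1 / 16 : ℝ) ^ #U) ^ n else 0) =
        ∑ k ∈ Finset.range (2 ^ n + 1), ((2 ^ n).choose k) •
          (if 3 ≤ k then (8 * Real.pi * (1 / 16 : ℝ) ^ k) ^ n else 0) := by
      have := Finset.sum_powerset_apply_card
        (fun k : ℕ => if 3 ≤ k then (8 * Real.pi * (1 / 16 : ℝ) ^ k) ^ n else 0)
        (x := (Finset.univ : Finset (Fin (2 ^ n))))
      rw [Finset.powerset_univ, Finset.card_univ, Fintype.card_fin] at this
      exact this
    rw [e1]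
    refine le_trans (Finset.sum_le_sum fun k _ => ?_) (sum_aux (2 ^ n + 1))
    split_ifs with hk
    · rw [nsmul_eq_mul]
      have hp := Real.pi_pos
      have c1 : (((2 ^ n).choose k : ℕ) : ℝ) ≤ ((2:ℝ) ^ n) ^ k := by
        have : (2 ^ n).choose k ≤ (2 ^ n) ^ k := Nat.choose_le_pow _ _
        exact_mod_cast this
      calc (((2 ^ n).choose k : ℕ) : ℝ) * (8 * Real.pi * (1 / 16) ^ k) ^ n
          ≤ ((2:ℝ) ^ n) ^ k * (8 * Real.pi * (1 / 16) ^ k) ^ n := by gcongr
        _ = (8 * Real.pi * (1 / 8) ^ k) ^ n := by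
            rw [← pow_mul, mul_comm n k, pow_mul, ← mul_pow]
            congr 1
            have : (1 / 8 : ℝ) ^ k = 2 ^ k * (1 / 16) ^ k := by
              rw [← mul_pow]; norm_num
            rw [this]; ring
        _ ≤ 8 * Real.pi * (1 / 8) ^ k := by
            have c2 : 8 * Real.pi * (1 / 8 : ℝ) ^ k ≤ 1 := by
              have c3 : (1 / 8 : ℝ) ^ k ≤ (1 / 8) ^ 3 :=
                pow_le_pow_of_le_one (by norm_num) (by norm_num) hk
              have c4 := Real.pi_le_four
              have c5 : (1 / 8 : ℝ) ^ 3 = 1 / 512 := by norm_num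
              rw [c5] at c3
              have c6 : (0:ℝ) ≤ (1 / 8) ^ k := by positivity
              nlinarith
            calc (8 * Real.pi * (1 / 8 : ℝ) ^ k) ^ n ≤ (8 * Real.pi * (1 / 8 : ℝ) ^ k) ^ 1 :=
                  pow_le_pow_of_le_one (by positivity) c2 hn
              _ = _ := pow_one _
    · simp
  have hone : ∑ U : Finset (Fin (2 ^ n)), (if #U = 1 then t else 0) = 2 ^ n * t := by
    have := Finset.sum_powerset_apply_card (fun k : ℕ => if k = 1 then t else 0)
        (x := (Finset.univ : Finset (Fin (2 ^ n))))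
    rw [Finset.powerset_univ, Finset.card_univ, Fintype.card_fin] at this
    rw [this]
    have h2 : ∀ k : ℕ, (2 ^ n).choose k • (if k = 1 then t else 0) =
        if k = 1 then ((2 ^ n).choose k : ℂ) * t else 0 := by
      intro k
      split_ifs <;> simp
    simp only [h2]
    rw [Finset.sum_ite_eq', if_pos (by simp)]
    simp
  have hfin : ‖(2:ℂ) ^ n * t‖ ≤ m + b * 1 := by
    have h1 : (2:ℂ) ^ n * t = (∑ U : Finset (Fin (2 ^ n)), a U * zf #U ^ n) -
        ∑ U : Finset (Fin (2 ^ n)), (a U * zf #U ^ n - (if #U = 1 then t else 0)) := by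
      rw [Finset.sum_sub_distrib, hone]
      ring
    rw [h1]
    refine (norm_sub_le _ _).trans (add_le_add hS ?_)
    calc ‖∑ U : Finset (Fin (2 ^ n)), (a U * zf #U ^ n - (if #U = 1 then t else 0))‖
        ≤ ∑ U : Finset (Fin (2 ^ n)), ‖a U * zf #U ^ n - (if #U = 1 then t else 0)‖ :=
          norm_sum_le _ _
      _ ≤ ∑ U : Finset (Fin (2 ^ n)),
          b * (if 3 ≤ #U then (8 * Real.pi * (1 / 16) ^ #U) ^ n else 0) :=
          Finset.sum_le_sum fun U _ => hrest U
      _ = b * ∑ U : Finset (Fin (2 ^ n)),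
          (if 3 ≤ #U then (8 * Real.pi * (1 / 16) ^ #U) ^ n else 0) := by rw [Finset.mul_sum]
      _ ≤ b * 1 := mul_le_mul_of_nonneg_left hcount hb
  have h5 : ‖(2:ℂ) ^ n * t‖ = 2 ^ n * ‖t‖ := by rw [norm_mul]; simp
  rw [h5] at hfin
  linarith

variable {I : Type} [Fintype I] [DecidableEq I]

theorem VHyp.t_bound {n : ℕ} (hn : 1 ≤ n) {κ : Finset I → Finset (Fin (2 ^ n)) → ℝ}
    {c : Finset I → ℝ} {b₁ b B : ℝ} (h : VHyp κ c b₁ b B) {j : ℕ}
    (hj : j < 2 * Fintype.card I + 1) (hR : 51 * (n:ℝ) ≤ |(j:ℝ) - Fintype.card I|) :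
    (2:ℝ) ^ n * ‖(QQ c).coeff j‖ ≤ b + B := by
  have hQ : ∀ k : Fin (2 ^ n), (fun T => κ T {k}) = c := fun k => funext fun T => h.κ_one T k
  have hn0 : (0:ℝ) < n := by exact_mod_cast hn
  refine level_extract_complex hn (fun U => (QQ fun T => κ T U).coeff j) _ b B ?_ ?_ ?_ ?_
  · intro U hU
    have h1 : (fun T => κ T U) = fun _ => (0:ℝ) := funext fun T => h.κ_even T U hU
    rw [h1]
    simp [QQ]
  · intro k
    simp only [hQ k]
  · intro U
    exact coeff_QQ_le _ (h.κ_bd U) hj
  · intro l hl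
    have hR0 : ((j:ℝ) - Fintype.card I) ≠ 0 := by
      intro h0
      rw [h0, abs_zero] at hR
      linarith
    have hl' : (l:ℝ) ≤ n := by exact_mod_cast hl
    have hpi : Real.pi < 3.15 := Real.pi_lt_d2
    have hpi0 := Real.pi_pos
    have hl0 : (0:ℝ) ≤ l := Nat.cast_nonneg l
    have hs : |16 * Real.pi * l / ((j:ℝ) - Fintype.card I)| ≤ 1 := by
      rw [abs_div, abs_of_nonneg (by positivity : 0 ≤ 16 * Real.pi * l)]
      apply div_le_one_of_le₀ _ (abs_nonneg _)
      refine le_trans ?_ hR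
      nlinarith
    have h2 := h.coeff_m (s := 16 * Real.pi * l / ((j:ℝ) - Fintype.card I)) (β := 1 / 16) hs
      (by rw [abs_of_pos] <;> norm_num) hj
    have h3 : 16 * Real.pi * l / ((j:ℝ) - Fintype.card I) * ((j:ℝ) - Fintype.card I) =
        16 * Real.pi * l := div_mul_cancel₀ _ hR0
    rw [h3] at h2
    exact h2

theorem deriv_sum_QQ (c : Finset I → ℝ) (c_even : ∀ T, Even #T → c T = 0)
    (c_one : ∀ i, c {i} = 1) :
    ∑ j ∈ range (2 * Fintype.card I + 1), ((j:ℂ) - Fintype.card I) * (QQ c).coeff j =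
      (Fintype.card I : ℂ) / (4 * Complex.I) := by
  by_cases hc : ∃ b₁, ∀ ω : I → ℤˣ, |∑ T, c T * walsh T ω| ≤ b₁
  · obtain ⟨b₁, hb₁⟩ := hc
    have h : CoreHyp (I' := Fin 1) c (fun U => if U = {0} then 1 else 0) b₁ 1
        (∑ T : Finset I, |c T|) :=
      { c_even := c_even
        a_even := fun U hU => by
          rw [if_neg]
          rintro rfl
          simp at hU
        c_one := c_one
        a_one := fun k => by
          rw [if_pos]
          rw [Subsingleton.elim k 0]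
        c_bd := hb₁
        a_bd := fun y => by
          simp only [ite_mul, one_mul, zero_mul]
          rw [Finset.sum_ite_eq' Finset.univ ({0} : Finset (Fin 1)), if_pos (Finset.mem_univ _),
            walsh_singleton, abs_sg]
        bd := fun A => by
          refine (Finset.abs_sum_le_sum_abs _ _).trans (Finset.sum_le_sum fun T _ => ?_)
          simp only [ite_mul, one_mul, zero_mul]
          rw [Finset.sum_ite_eq' Finset.univ ({0} : Finset (Fin 1)), if_pos (Finset.mem_univ _),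
            walsh_singleton, abs_mul, abs_sg, mul_one] }
    exact h.deriv_sum
  · exfalso
    apply hc
    refine ⟨∑ T : Finset I, |c T|, fun ω => ?_⟩
    refine (Finset.abs_sum_le_sum_abs _ _).trans (Finset.sum_le_sum fun T _ => ?_)
    have : |walsh T ω| = 1 := by
      rw [walsh, Finset.abs_prod]
      exact Finset.prod_eq_one fun i _ => abs_sg _
    rw [abs_mul, this, mul_one]

theorem VHyp.numerical {n : ℕ} (hn : 1 ≤ n) {κ : Finset I → Finset (Fin (2 ^ n)) → ℝ}
    {c : Finset I → ℝ} {b₁ b B : ℝ} (h : VHyp κ c b₁ b B) :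
    (Fintype.card I : ℝ) / 4 ≤ 103 * n * (51 * n * b₁) +
      (2 * Fintype.card I + 1) * (Fintype.card I * ((b + B) / 2 ^ n)) := by
  set M := Fintype.card I with hM
  set R : ℕ → ℝ := fun j => (j:ℝ) - M with hR
  have hn1 : (1:ℝ) ≤ n := by exact_mod_cast hn
  have hb₁ : 0 ≤ b₁ := (abs_nonneg _).trans (h.c_bd 1)
  have hb : 0 ≤ b := (abs_nonneg _).trans (h.κ_bd ∅ 1)
  have hB : 0 ≤ B := (abs_nonneg _).trans (h.bd 1)
  have hRle : ∀ j ∈ range (2 * M + 1), |R j| ≤ M := by
    intro j hj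
    have : (j:ℝ) ≤ 2 * M := by
      have := Finset.mem_range.mp hj
      have h2 : j ≤ 2 * M := by omega
      exact_mod_cast h2
    have h0 : (0:ℝ) ≤ j := Nat.cast_nonneg j
    simp only [hR]
    rw [abs_le]
    constructor <;> linarith
  have h1 : (M:ℝ) / 4 ≤ ∑ j ∈ range (2 * M + 1), |R j| * ‖(QQ c).coeff j‖ := by
    have h2 := deriv_sum_QQ c h.c_even h.c_one
    have h3 : ‖(M : ℂ) / (4 * Complex.I)‖ = (M:ℝ) / 4 := by
      rw [norm_div, norm_mul, Complex.norm_I, mul_one, Complex.norm_natCast, Complex.norm_ofNat]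
    rw [← h3, ← h2]
    refine (norm_sum_le _ _).trans (Finset.sum_le_sum fun j _ => ?_)
    rw [norm_mul]
    refine mul_le_mul_of_nonneg_right ?_ (norm_nonneg _)
    have : ((j:ℂ) - M) = ((R j : ℝ) : ℂ) := by simp [hR]
    rw [this, Complex.norm_real, Real.norm_eq_abs]
  refine h1.trans ?_
  have h4 : ∀ j ∈ range (2 * M + 1), |R j| * ‖(QQ c).coeff j‖ ≤
      (if |R j| < 51 * n then 51 * n * b₁ else 0) + M * ((b + B) / 2 ^ n) := by
    intro j hj
    have hj' := Finset.mem_range.mp hj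
    have hMB : 0 ≤ (M:ℝ) * ((b + B) / 2 ^ n) := by positivity
    split_ifs with hjξ
    · have : |R j| * ‖(QQ c).coeff j‖ ≤ 51 * n * b₁ :=
        mul_le_mul hjξ.le (coeff_QQ_le c h.c_bd hj') (norm_nonneg _) (by positivity)
      linarith
    · rw [zero_add]
      have h5 := h.t_bound hn hj' (not_lt.mp hjξ)
      have h6 : ‖(QQ c).coeff j‖ ≤ (b + B) / 2 ^ n := by
        rw [le_div_iff₀ (by positivity)]
        linarith
      exact mul_le_mul (hRle j hj) h6 (norm_nonneg _) (Nat.cast_nonneg _)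
  refine (Finset.sum_le_sum h4).trans ?_
  rw [Finset.sum_add_distrib, Finset.sum_const, Finset.card_range, nsmul_eq_mul,
    ← Finset.sum_filter, Finset.sum_const, nsmul_eq_mul]
  have hcard : (#((range (2 * M + 1)).filter fun j => |R j| < 51 * n) : ℝ) ≤ 103 * n := by
    have hsub : ((range (2 * M + 1)).filter fun j => |R j| < 51 * n) ⊆
        Finset.Icc (M - 51 * n) (M + 51 * n) := by
      intro j hj
      rw [Finset.mem_filter] at hj
      have h7 := abs_lt.mp hj.2
      simp only [hR] at h7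
      rw [Finset.mem_Icc]
      constructor
      · have h8 : (M:ℝ) < j + 51 * n := by linarith [h7.1]
        have h9 : M < j + 51 * n := by exact_mod_cast h8
        omega
      · have h8 : (j:ℝ) < M + 51 * n := by linarith [h7.2]
        have h9 : j < M + 51 * n := by exact_mod_cast h8
        omega
    have h10 := Finset.card_le_card hsub
    rw [Nat.card_Icc] at h10
    have h11 : #((range (2 * M + 1)).filter fun j => |R j| < 51 * n) ≤ 103 * n := by omega
    exact_mod_cast h11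
  have h12 : (0:ℝ) ≤ 51 * n * b₁ := by positivity
  have h13 := mul_le_mul_of_nonneg_right hcard h12
  push_cast
  linarith

end Vale.Agent.P111.SY
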