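import Vale.Agent.P111.SY.Main

/-! Symmetric homogeneous norms on vector valued functions on the cube: the theorem. -/

set_option linter.unusedSectionVars false

namespace Vale.Agent.P111.SY

open Finset Vale.Agent.P111 Vale.Agent.P111.TK

section

variable {D M M' R : ℕ} {V E : Type*} [NormedAddCommGroup V] [NormedSpace ℝ V]
    [NormedAddCommGroup E] [NormedSpace ℝ E] {e : E ≃ₗ[ℝ] ((Fin D → ℤˣ) → V)} {C : ℝ}

theorem nn_zero (ν : (Fin M' → Fin D → ℤˣ) → (Fin M' → ℤˣ) → (E →L[ℝ] ℝ))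
    (x : Fin M' → Fin D → ℤˣ) (δ : Fin M' → ℤˣ) (J : Fin D → ℤˣ) :
    nn e ν (0 : V) x δ J = 0 := by
  have := nn_smul (e := e) ν 0 (0 : V) x δ J
  rwa [zero_smul, zero_mul] at this

/-- the sum of the values on the components -/
theorem sum_nn (ν : (Fin M' → Fin D → ℤˣ) → (Fin M' → ℤˣ) → (E →L[ℝ] ℝ))
    (J : Fin M → Fin D → ℤˣ) (c : Finset (Fin M) → V) (z : E)
    (hz : ∀ y, e z y = ∑ T, sg (chi (JT J T) y) • c T) (x : Fin M' → Fin D → ℤˣ)
    (δ : Fin M' → ℤˣ) :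
    ∑ T, nn e ν (c T) x δ (JT J T) = avg fun σ : Equiv.Perm (Fin D) =>
      ν (fun k j => x k (σ j)) δ (e.symm fun y => e z (fun j => y (σ.symm j))) := by
  unfold nn
  rw [← avg_sum]
  refine avg_congr fun σ => ?_
  rw [← map_sum, ← map_sum]
  congr 2
  funext y
  rw [Finset.sum_apply, hz]
  refine Finset.sum_congr rfl fun T _ => ?_
  have h1 := chi_comp (JT J T) (fun j => y (σ.symm j)) σ
  simp only [Equiv.symm_apply_apply] at h1
  rw [h1]

theorem abs_sum_nn_le (he : Adm C e) {β β₁ : ℝ}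
    (ν : (Fin M' → Fin D → ℤˣ) → (Fin M' → ℤˣ) → (E →L[ℝ] ℝ)) (hν : ∀ x δ, ‖ν x δ‖ ≤ β)
    (J : Fin M → Fin D → ℤˣ) (c : Finset (Fin M) → V) (z : E) (hzn : ‖z‖ ≤ β₁)
    (hz : ∀ y, e z y = ∑ T, sg (chi (JT J T) y) • c T) (x : Fin M' → Fin D → ℤˣ)
    (δ : Fin M' → ℤˣ) :
    |∑ T, nn e ν (c T) x δ (JT J T)| ≤ β * β₁ := by
  have hβ : 0 ≤ β := (norm_nonneg _).trans (hν x δ)
  rw [sum_nn ν J c z hz]
  refine (abs_avg_le _).trans ?_
  have h1 : ∀ σ : Equiv.Perm (Fin D), |ν (fun k j => x k (σ j)) δ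
      (e.symm fun y => e z (fun j => y (σ.symm j)))| ≤ β * β₁ := by
    intro σ
    rw [← Real.norm_eq_abs]
    refine ((ν _ δ).le_opNorm _).trans ?_
    exact mul_le_mul (hν _ _) ((he.perm σ.symm z).trans hzn) (norm_nonneg _) hβ
  refine (avg_mono h1).trans (le_of_eq ?_)
  exact avg_const _

theorem walsh_expand {I : Type} [Fintype I] [DecidableEq I] (h : (I → ℤˣ) → ℝ) (y : I → ℤˣ) :
    ∑ U, wc U h * walsh U y = h y := by
  rw [← sum_walsh_smul_wc h y]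
  exact Finset.sum_congr rfl fun U _ => by rw [smul_eq_mul, mul_comm]

theorem wc_even_zero {I : Type} [Fintype I] [DecidableEq I] (h : (I → ℤˣ) → ℝ)
    (hodd : ∀ y, h (-y) = - h y) (U : Finset I) (hU : Even #U) : wc U h = 0 := by
  have h1 := wc_translate U h (-1 : I → ℤˣ)
  have h2 : (fun ω : I → ℤˣ => h (-1 * ω)) = fun ω => - h ω := by
    funext ω
    rw [neg_one_mul, hodd]
  have h3 : walsh U (-1 : I → ℤˣ) = 1 := by
    simp only [walsh, Pi.neg_apply, Pi.one_apply, sg_neg_one, Finset.prod_const]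
    exact hU.neg_one_pow
  rw [h2, h3, one_smul] at h1
  have h4 : wc U (fun ω => - h ω) = - wc U h := by
    simp only [wc, smul_neg]
    exact avg_neg _
  rw [h4] at h1
  linarith

theorem abs_wc_le {I : Type} [Fintype I] [DecidableEq I] (h : (I → ℤˣ) → ℝ) {b : ℝ}
    (hb : ∀ y, |h y| ≤ b) (U : Finset I) : |wc U h| ≤ b := by
  rw [wc]
  refine (abs_avg_le _).trans ?_
  have e1 : ∀ y : I → ℤˣ, |walsh U y • h y| ≤ b := by
    intro y
    have e2 : |walsh U y| = 1 := by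
      rw [walsh, Finset.abs_prod]
      exact Finset.prod_eq_one fun i _ => abs_sg _
    rw [smul_eq_mul, abs_mul, e2, one_mul]
    exact hb y
  refine (avg_mono e1).trans (le_of_eq ?_)
  exact avg_const _

/-- The assembly. -/
theorem assembly (hC : 1 ≤ C) (he : Adm C e) (hR : 0 < R) (hM : M ≠ 0)
    (emb : Fin R × Finset (Fin M) ↪ Fin D) {β₁ β₂ : ℝ} (v₀ : V) (w₀ : V →L[ℝ] ℝ)
    (hw₀ : ‖w₀‖ ≤ 1) (hwv : w₀ v₀ = 1) (c : Finset (Fin M) → V) (z : E) (hzn : ‖z‖ ≤ β₁)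
    (hz : ∀ y, e z y = ∑ T, sg (chi (JT (cw emb) T) y) • c T) (hce : ∀ T, Even #T → c T = 0)
    (hc1 : ∀ i, c {i} = v₀)
    (ν : (Fin M' → Fin D → ℤˣ) → (Fin M' → ℤˣ) → (E →L[ℝ] ℝ)) (hν : ∀ x δ, ‖ν x δ‖ ≤ β₂)
    (hνo : ∀ x δ, ν x (-δ) = - ν x δ)
    (hν1 : ∀ x k, wc {k} (ν x) = ev (by linarith : 0 ≤ C) he w₀ hw₀ (x k))
    (herr : (2:ℝ) ^ M * (((2 : ℝ) ^ M) ^ M' * (β₂ * (C * (C * β₁)) / √R)) ≤ 1) :
    ∃ (κ : Finset (Fin M) → Finset (Fin M') → ℝ) (c' : Finset (Fin M) → ℝ),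
      VHyp κ c' (C * β₁) (β₂ * (C * (C * β₁))) (β₂ * β₁ + 1) := by
  have hC0 : 0 ≤ C := by linarith
  have hβ₁ : 0 ≤ β₁ := (norm_nonneg _).trans hzn
  have hβ₂ : 0 ≤ β₂ := (norm_nonneg _).trans (hν 1 1)
  set i₀ : Fin M := ⟨0, Nat.pos_of_ne_zero hM⟩
  set J₁ : Fin D → ℤˣ := JT (cw emb) {i₀} with hJ₁
  -- the function `F`
  have hF : ∀ ω : Fin M → ℤˣ, ‖∑ T, walsh T ω • c T‖ ≤ C * β₁ := by
    intro ω
    obtain ⟨g, hg⟩ := exists_point hR emb ω
    have h1 : ∑ T, walsh T ω • c T = e z g := by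
      rw [hz g]
      refine Finset.sum_congr rfl fun T _ => ?_
      rw [← walsh_chi]
      congr 2
      funext i
      exact (hg i).symm
    rw [h1]
    exact (he.sup_le z g).trans (mul_le_mul_of_nonneg_left hzn hC0)
  have hcT : ∀ T, ‖c T‖ ≤ C * β₁ := by
    intro T
    have h1 : c T = avg fun ω : Fin M → ℤˣ => walsh T ω • ∑ T', walsh T' ω • c T' := by
      simp only [Finset.smul_sum]
      rw [avg_sum]
      have h2 : ∀ T', (avg fun ω : Fin M → ℤˣ => walsh T ω • walsh T' ω • c T') =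
          if T = T' then c T' else 0 := fun T' => wc_walsh_smul T T' (c T')
      rw [Finset.sum_congr rfl fun T' _ => h2 T']
      simp
    rw [h1]
    refine (H1.norm_avg_le _).trans ?_
    have h3 : ∀ ω : Fin M → ℤˣ, ‖walsh T ω • ∑ T', walsh T' ω • c T'‖ ≤ C * β₁ := by
      intro ω
      have e2 : ‖walsh T ω‖ = 1 := by
        rw [Real.norm_eq_abs, walsh, Finset.abs_prod]
        exact Finset.prod_eq_one fun i _ => abs_sg _
      rw [norm_smul, e2, one_mul]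
      exact hF ω
    refine (avg_mono h3).trans (le_of_eq ?_)
    exact avg_const _
  refine ⟨fun T U => wc U (hh (nn e ν (c T)) J₁), fun T => w₀ (c T), ?_⟩
  refine
    { c_even := fun T hT => by rw [hce T hT, map_zero]
      κ_even := fun T U hU => wc_even_zero _ (h_odd ν J₁ hνo (c T)) U hU
      c_one := fun i => by rw [hc1 i, hwv]
      κ_one := fun T k => h_level ν J₁ hC0 he w₀ hw₀ hν1 (c T) k
      c_bd := fun ω => ?_
      κ_bd := fun U ω => ?_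
      bd := fun A => ?_ }
  · have h1 : ∑ T, w₀ (c T) * walsh T ω = w₀ (∑ T, walsh T ω • c T) := by
      rw [map_sum]
      refine Finset.sum_congr rfl fun T _ => ?_
      rw [map_smul, smul_eq_mul, mul_comm]
    rw [h1, ← Real.norm_eq_abs]
    calc ‖w₀ (∑ T, walsh T ω • c T)‖ ≤ ‖w₀‖ * ‖∑ T, walsh T ω • c T‖ := w₀.le_opNorm _
      _ ≤ 1 * (C * β₁) := mul_le_mul hw₀ (hF ω) (norm_nonneg _) zero_le_one
      _ = C * β₁ := one_mul _
  · have h1 : ∑ T, wc U (hh (nn e ν (c T)) J₁) * walsh T ω =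
        wc U (hh (nn e ν (∑ T, walsh T ω • c T)) J₁) := by
      have h2 : hh (nn e ν (∑ T, walsh T ω • c T)) J₁ =
          fun y => ∑ T, walsh T ω * hh (nn e ν (c T)) J₁ y := by
        funext y
        rw [h_sum]
        exact Finset.sum_congr rfl fun T _ => h_smul ν J₁ _ _ _
      rw [h2, wc]
      simp only [Finset.smul_sum]
      rw [avg_sum]
      refine Finset.sum_congr rfl fun T _ => ?_
      rw [wc, ← avg_mul_right]
      refine avg_congr fun y => ?_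
      simp only [smul_eq_mul]
      ring
    rw [h1]
    refine abs_wc_le _ (fun y => ?_) U
    refine (h_le ν J₁ he hν _ y).trans ?_
    have := hF ω
    gcongr
  · -- the pairing
    have h1 : ∑ T, ∑ U, wc U (hh (nn e ν (c T)) J₁) * walsh U (fun k => ∏ i ∈ T, A i k) =
        ∑ T, hh (nn e ν (c T)) J₁ (AT A T) := by
      refine Finset.sum_congr rfl fun T _ => ?_
      rw [walsh_expand]
      congr 1
      funext k
      exact (AT_apply A T k).symm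
    rw [h1]
    set P : Finset (Fin M) → ℝ := fun T => avg fun δ : Fin M' → ℤˣ =>
      avg fun x : Fin M' → Fin D → ℤˣ =>
        WW (cw emb) x (fun i k => A i k * δ k) * nn e ν (c T) x δ (JT (cw emb) T) with hP
    have hdiff : ∀ T, |P T - hh (nn e ν (c T)) J₁ (AT A T)| ≤
        ((2 : ℝ) ^ M) ^ M' * (β₂ * (C * (C * β₁)) / √R) := by
      intro T
      rcases Nat.even_or_odd #T with hT | hT
      · have h2 : P T - hh (nn e ν (c T)) J₁ (AT A T) = 0 := by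
          rw [hP]
          simp only [hce T hT, nn_zero, mul_zero, h_zero, sub_zero, avg_zero]
        rw [h2, abs_zero]
        positivity
      · have hTn : T.Nonempty := by
          rw [← Finset.card_pos]
          exact hT.pos
        have h2 := sym_estimate (nn_equivariant ν (c T)) (b := β₂ * (C * (C * β₁)))
          (fun x δ J => (nn_le ν he hν (c T) x δ J).trans (by
            have := hcT T
            gcongr)) hR emb A T hT
        rw [hh_eq (nn_equivariant ν (c T)) emb T {i₀} hTn (Finset.singleton_nonempty _)] at h2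
        exact h2
    have hsumP : |∑ T, P T| ≤ β₂ * β₁ := by
      have h2 : ∑ T, P T = avg fun δ : Fin M' → ℤˣ => avg fun x : Fin M' → Fin D → ℤˣ =>
          WW (cw emb) x (fun i k => A i k * δ k) *
            ∑ T, nn e ν (c T) x δ (JT (cw emb) T) := by
        simp only [hP]
        rw [← avg_sum]
        refine avg_congr fun δ => ?_
        rw [← avg_sum]
        refine avg_congr fun x => ?_
        rw [Finset.mul_sum]
      rw [h2]
      refine (abs_avg_le _).trans ?_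
      have h3 : ∀ δ : Fin M' → ℤˣ, |avg fun x : Fin M' → Fin D → ℤˣ =>
          WW (cw emb) x (fun i k => A i k * δ k) *
            ∑ T, nn e ν (c T) x δ (JT (cw emb) T)| ≤ β₂ * β₁ := by
        intro δ
        refine (abs_avg_le _).trans ?_
        have h4 : ∀ x : Fin M' → Fin D → ℤˣ, |WW (cw emb) x (fun i k => A i k * δ k) *
            ∑ T, nn e ν (c T) x δ (JT (cw emb) T)| ≤
            WW (cw emb) x (fun i k => A i k * δ k) * (β₂ * β₁) := by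
          intro x
          rw [abs_mul, abs_of_nonneg (WW_nonneg' _ _ _)]
          exact mul_le_mul_of_nonneg_left
            (abs_sum_nn_le he ν hν (cw emb) c z hzn hz x δ) (WW_nonneg' _ _ _)
        refine (avg_mono h4).trans (le_of_eq ?_)
        rw [avg_mul_right, avg_WW' (cw emb) (fun T hT => JT_cw_ne_one hR emb T hT), one_mul]
      refine (avg_mono h3).trans (le_of_eq ?_)
      exact avg_const _
    have hcardT : (#(Finset.univ : Finset (Finset (Fin M))) : ℝ) = 2 ^ M := by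
      simp
    have htot : |∑ T, (P T - hh (nn e ν (c T)) J₁ (AT A T))| ≤ 1 := by
      refine (Finset.abs_sum_le_sum_abs _ _).trans ?_
      refine (Finset.sum_le_sum fun T _ => hdiff T).trans ?_
      rw [Finset.sum_const, nsmul_eq_mul, hcardT]
      exact herr
    have h5 : ∑ T, hh (nn e ν (c T)) J₁ (AT A T) =
        ∑ T, P T - ∑ T, (P T - hh (nn e ν (c T)) J₁ (AT A T)) := by
      rw [Finset.sum_sub_distrib]
      ring
    rw [h5]
    exact (abs_sub _ _).trans (add_le_add hsumP htot)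

theorem VHyp.mono {I I' : Type} [Fintype I] [DecidableEq I] [Fintype I'] [DecidableEq I']
    {κ : Finset I → Finset I' → ℝ} {c : Finset I → ℝ} {b₁ b B b₁' b' B' : ℝ}
    (h : VHyp κ c b₁ b B) (h1 : b₁ ≤ b₁') (h2 : b ≤ b') (h3 : B ≤ B') :
    VHyp κ c b₁' b' B' :=
  ⟨h.c_even, h.κ_even, h.c_one, h.κ_one, fun ω => (h.c_bd ω).trans h1,
    fun U ω => (h.κ_bd U ω).trans h2, fun A => (h.bd A).trans h3⟩

end

/-- The core, with the numbers of variables as opaque numbers. -/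
theorem vcore' (q r C : ℝ) (hq : 2 ≤ q) (hr : 2 ≤ r) (hC : 1 ≤ C) : ∃ M M' : ℕ, M ≠ 0 ∧ M' ≠ 0 ∧
    ∀ (κ : Finset (Fin M) → Finset (Fin M') → ℝ) (c : Finset (Fin M) → ℝ),
      ¬ VHyp κ c (C * (M : ℝ) ^ (1 - 1 / r))
        (C * (M : ℝ) ^ (1 - 1 / r) * (C * (M' : ℝ) ^ (1 - 1 / q)))
        (C * (M : ℝ) ^ (1 - 1 / r) * (C * (M' : ℝ) ^ (1 - 1 / q))) := by
  obtain ⟨M, n, hM, _, h⟩ := vcore q r C hq hr hC
  exact ⟨M, 2 ^ n, hM, (Nat.two_pow_pos n).ne', h⟩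

theorem rpow_ge_one {M : ℕ} (hM : M ≠ 0) {r : ℝ} (hr : 2 ≤ r) : 1 ≤ (M : ℝ) ^ (1 - 1 / r) := by
  have hM1 : (1:ℝ) ≤ M := by
    have : 1 ≤ M := Nat.one_le_iff_ne_zero.mpr hM
    exact_mod_cast this
  have hr0 : 0 < r := by linarith
  apply Real.one_le_rpow hM1
  have : 1 / r ≤ 1 := by rw [div_le_one hr0]; linarith
  linarith

theorem numerics (C a a' : ℝ) (hC : 1 ≤ C) (ha : 1 ≤ a) (ha' : 1 ≤ a') :
    C * (3 * C ^ 2 * a + 1) ≤ 4 * C ^ 3 * a ∧
    (3 * C * C * a') * (C * (C * (3 * C ^ 2 * a + 1))) ≤ 4 * C ^ 3 * a * (4 * C ^ 3 * a') ∧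
    (3 * C * C * a') * (3 * C ^ 2 * a + 1) + 1 ≤ 4 * C ^ 3 * a * (4 * C ^ 3 * a') := by
  have hC0 : 0 ≤ C := by linarith
  have ha0 : 0 ≤ a := by linarith
  have ha'0 : 0 ≤ a' := by linarith
  have h13 : 1 ≤ C ^ 3 := one_le_pow₀ hC
  have hC3 : C ^ 2 ≤ C ^ 3 := pow_le_pow_right₀ hC (by norm_num)
  have hCC3 : C ≤ C ^ 3 := by
    calc C = C ^ 1 := (pow_one C).symm
      _ ≤ C ^ 3 := pow_le_pow_right₀ hC (by norm_num)
  have hb₁ : C * (3 * C ^ 2 * a + 1) ≤ 4 * C ^ 3 * a := by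
    have : C * (3 * C ^ 2 * a + 1) = 3 * (C ^ 3 * a) + C := by ring
    rw [this]
    have h1 : C ≤ C ^ 3 * a := by nlinarith
    linarith
  have hβ₁0 : 0 ≤ 3 * C ^ 2 * a + 1 := by positivity
  have hβ₂C : (3 * C * C * a') * C ≤ 4 * C ^ 3 * a' := by
    have : 3 * C * C * a' * C = 3 * (C ^ 3 * a') := by ring
    rw [this]
    have h1 : 0 ≤ C ^ 3 * a' := by positivity
    linarith
  refine ⟨hb₁, ?_, ?_⟩
  · calc (3 * C * C * a') * (C * (C * (3 * C ^ 2 * a + 1)))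
        = (C * (3 * C ^ 2 * a + 1)) * ((3 * C * C * a') * C) := by ring
      _ ≤ (4 * C ^ 3 * a) * (4 * C ^ 3 * a') := mul_le_mul hb₁ hβ₂C (by positivity) (by positivity)
  · have h1 : 3 * C ^ 2 * a + 1 ≤ 4 * C ^ 3 * a := by
      refine le_trans ?_ hb₁
      nlinarith
    have h2 : 3 * C * C * a' ≤ 3 * C ^ 3 * a' := by
      have : 3 * C * C * a' = 3 * C ^ 2 * a' := by ring
      rw [this]
      nlinarith
    have h3 : (3 * C * C * a') * (3 * C ^ 2 * a + 1) ≤ (3 * C ^ 3 * a') * (4 * C ^ 3 * a) :=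
      mul_le_mul h2 h1 hβ₁0 (by positivity)
    have h4 : 1 ≤ C ^ 3 * a := one_le_mul_of_one_le_of_one_le h13 ha
    have h5 : 1 ≤ C ^ 3 * a' := one_le_mul_of_one_le_of_one_le h13 ha'
    have h6 : 1 ≤ (C ^ 3 * a) * (C ^ 3 * a') := one_le_mul_of_one_le_of_one_le h4 h5
    have h7 : (3 * C ^ 3 * a') * (4 * C ^ 3 * a) = 12 * ((C ^ 3 * a) * (C ^ 3 * a')) := by ring
    have h8 : 4 * C ^ 3 * a * (4 * C ^ 3 * a') = 16 * ((C ^ 3 * a) * (C ^ 3 * a')) := by ring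
    rw [h8]
    rw [h7] at h3
    linarith

universe v w

/-- Theorem SYM. -/
theorem sym_main (q r C : ℝ) (hq : 2 ≤ q) (hr : 2 ≤ r) (hC : 1 ≤ C) : ∃ D₀ : ℕ, ∀ D ≥ D₀,
    ∀ (V : Type v) [NormedAddCommGroup V] [NormedSpace ℝ V] [Nontrivial V]
      (E : Type w) [NormedAddCommGroup E] [NormedSpace ℝ E] (e : E ≃ₗ[ℝ] ((Fin D → ℤˣ) → V)),
      Adm C e → CotypeWith q C E → ¬ CotypeWith r C (E →L[ℝ] ℝ) := by
  have hC0 : 0 ≤ C := by linarith
  have h43 : 1 ≤ 4 * C ^ 3 := by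
    have h13 : 1 ≤ C ^ 3 := one_le_pow₀ hC
    linarith
  obtain ⟨M, M', hM, hM', hcore⟩ := vcore' q r (4 * C ^ 3) hq hr h43
  obtain ⟨hn1, hn2, hn3⟩ := numerics C _ _ hC (rpow_ge_one hM hr) (rpow_ge_one hM' hq)
  obtain ⟨β₁, hβ₁⟩ : ∃ β₁ : ℝ, β₁ = 3 * C ^ 2 * (M : ℝ) ^ (1 - 1 / r) + 1 := ⟨_, rfl⟩
  obtain ⟨β₂, hβ₂⟩ : ∃ β₂ : ℝ, β₂ = 3 * C * C * (M' : ℝ) ^ (1 - 1 / q) := ⟨_, rfl⟩
  rw [← hβ₁] at hn1 hn2 hn3
  rw [← hβ₂] at hn2 hn3
  obtain ⟨X, hX⟩ : ∃ X : ℝ, X = (2:ℝ) ^ M * (((2 : ℝ) ^ M) ^ M' * (β₂ * (C * (C * β₁)))) :=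
    ⟨_, rfl⟩
  have hX0 : 0 ≤ X := by rw [hX, hβ₁, hβ₂]; positivity
  obtain ⟨R', hR'⟩ := exists_nat_ge (X ^ 2)
  obtain ⟨R, hR⟩ : ∃ R : ℕ, R = R' + 1 := ⟨_, rfl⟩
  have hR0 : 0 < R := by omega
  have hRX : X ≤ √R := by
    rw [← Real.sqrt_sq hX0]
    apply Real.sqrt_le_sqrt
    rw [hR]; push_cast
    linarith
  refine ⟨R * 2 ^ M, ?_⟩
  intro D hD V _ _ _ E _ _ e he hE hE'
  have hemb : Nonempty (Fin R × Finset (Fin M) ↪ Fin D) := by
    apply Function.Embedding.nonempty_of_card_le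
    rw [Fintype.card_prod, Fintype.card_fin, Fintype.card_finset, Fintype.card_fin,
      Fintype.card_fin]
    exact hD
  obtain ⟨emb⟩ := hemb
  obtain ⟨v, hv⟩ := exists_ne (0 : V)
  obtain ⟨v₀, hv₀n⟩ : ∃ v₀ : V, ‖v₀‖ = 1 := ⟨‖v‖⁻¹ • v, norm_smul_inv_norm hv⟩
  obtain ⟨w₀, hw₀, hwv⟩ := exists_dual_vector'' ℝ v₀
  have hwv' : w₀ v₀ = 1 := by
    rw [hwv, hv₀n]
    simp
  obtain ⟨c, z, hzn, hz, hce, hc1⟩ := u_lift hr hC he hE' (cw emb) v₀ hv₀n
  have hlift : ∀ x : Fin M' → Fin D → ℤˣ, ∃ ν : (Fin M' → ℤˣ) → (E →L[ℝ] ℝ),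
      (∀ δ, ‖ν δ‖ ≤ 3 * C * C * (M' : ℝ) ^ (1 - 1 / q)) ∧ (∀ δ, ν (-δ) = - ν δ) ∧
      ∀ k, wc {k} ν = ev hC0 he w₀ hw₀ (x k) := fun x =>
    lift_sup hq hC0 hC0 hE (fun k => ev hC0 he w₀ hw₀ (x k)) (fun k =>
      LinearMap.mkContinuous_norm_le _ hC0 _)
  choose ν hν1 hν2 hν3 using hlift
  have herr : (2:ℝ) ^ M * (((2 : ℝ) ^ M) ^ M' * (β₂ * (C * (C * β₁)) / √R)) ≤ 1 := by
    have hs : 0 < √(R:ℝ) := Real.sqrt_pos.mpr (by exact_mod_cast hR0)
    have h1 : (2:ℝ) ^ M * (((2 : ℝ) ^ M) ^ M' * (β₂ * (C * (C * β₁)) / √R)) = X / √R := by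
      rw [hX]; ring
    rw [h1, div_le_one hs]
    exact hRX
  rw [← hβ₁] at hzn
  rw [← hβ₂] at hν1
  obtain ⟨κ, c', hyp⟩ := assembly hC he hR0 hM emb v₀ w₀ hw₀ hwv' c z hzn hz hce hc1 ν hν1 hν2
    hν3 herr
  exact hcore κ c' (hyp.mono hn1 hn2 hn3)

end Vale.Agent.P111.SY
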