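import Vale.Agent.P111.SY.Final
import Vale.Agent.P111.TV.Cantor

/-!
Symmetric homogeneous Banach spaces of vector valued functions on the Cantor group.
-/

namespace Vale.Agent.P111.SY

open Finset Vale.Agent.P111

universe v w

theorem sym_inf (q r : ℝ) (V : Type v) [NormedAddCommGroup V] [NormedSpace ℝ V] [Nontrivial V]
    (E : Type w) [NormedAddCommGroup E] [NormedSpace ℝ E] [CompleteSpace E]
    (e : E →L[ℝ] C(ℕ → ℤˣ, V)) (τ : (ℕ → ℤˣ) → E → E) (B : ℝ) (c : Finset ℕ → V → E)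
    (h : TV.Hom e τ B c)
    (hσ : ∀ (s : Equiv.Perm ℕ) (f : E), (∃ N, ∀ i ≥ N, s i = i) →
      ∃ f' : E, ‖f'‖ ≤ ‖f‖ ∧ ∀ x, e f' x = e f (x ∘ s)) :
    ¬ (HasCotype q E ∧ HasCotype r (E →L[ℝ] ℝ)) := by
  rintro ⟨⟨hq, C₁, h1⟩, ⟨hr, C₂, h2⟩⟩
  set C : ℝ := max (max C₁ C₂) (max (max B ‖e‖) 1) with hC
  have hC1 : C₁ ≤ C := (le_max_left _ _).trans (le_max_left _ _)
  have hC2 : C₂ ≤ C := (le_max_right _ _).trans (le_max_left _ _)
  have hC3 : B ≤ C := (le_max_left _ _).trans ((le_max_left _ _).trans (le_max_right _ _))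
  have hC4 : ‖e‖ ≤ C := (le_max_right _ _).trans ((le_max_left _ _).trans (le_max_right _ _))
  have hC5 : 1 ≤ C := (le_max_right _ _).trans (le_max_right _ _)
  have h1' : CotypeWith q C E := fun n y => (h1 n y).trans
    (mul_le_mul_of_nonneg_right hC1 (Real.rpow_nonneg (avg_nonneg fun _ => by positivity) _))
  have h2' : CotypeWith r C (E →L[ℝ] ℝ) := fun n y => (h2 n y).trans
    (mul_le_mul_of_nonneg_right hC2 (Real.rpow_nonneg (avg_nonneg fun _ => by positivity) _))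
  obtain ⟨D₀, hD₀⟩ := sym_main.{v, w} q r C hq hr hC5
  have hc0 : 0 ≤ C := by linarith
  refine hD₀ D₀ le_rfl V (TV.ED e D₀) (TV.eqD h D₀) ⟨?_, ?_, ?_, ?_⟩
    (TV.ED_cotype (by linarith) hc0 h1' D₀) (TV.ED_dual_cotype h (by linarith) hc0 h2' D₀)
  · intro f x
    exact (TV.eqD_sup h f x).trans (mul_le_mul_of_nonneg_right hC4 (norm_nonneg _))
  · intro g f
    have := TV.eqD_trans h f g
    simpa only [mul_comm] using this
  · intro σ f
    exact TV.eqD_perm h σ hσ f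
  · intro S v
    exact (TV.eqD_char h S v).trans (mul_le_mul_of_nonneg_right hC3 (norm_nonneg _))

end Vale.Agent.P111.SY
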