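import Vale.Agent.P111.TK.Gen

/-! Symmetric homogeneous norms: the characters of the simplex code. -/

set_option linter.unusedSectionVars false

namespace Vale.Agent.P111.SY

open Finset Vale.Agent.P111 Vale.Agent.P111.TK

section Code

variable {D M R : ℕ}

/-- The label of a coordinate. -/
noncomputable def lab (e : Fin R × Finset (Fin M) ↪ Fin D) (j : Fin D) : Finset (Fin M) := by
  classical
  exact if h : ∃ p, e p = j then h.choose.2 else ∅

theorem lab_apply (e : Fin R × Finset (Fin M) ↪ Fin D) (p : Fin R × Finset (Fin M)) :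
    lab e (e p) = p.2 := by
  classical
  have h : ∃ p', e p' = e p := ⟨p, rfl⟩
  rw [lab, dif_pos h]
  rw [e.injective h.choose_spec]

theorem lab_of_notMem (e : Fin R × Finset (Fin M) ↪ Fin D) {j : Fin D} (h : ¬ ∃ p, e p = j) :
    lab e j = ∅ := by
  classical
  rw [lab, dif_neg h]

/-- The generators of the simplex code. -/
noncomputable def cw (e : Fin R × Finset (Fin M) ↪ Fin D) (i : Fin M) : Fin D → ℤˣ :=
  fun j => if i ∈ lab e j then -1 else 1

theorem JT_cw (e : Fin R × Finset (Fin M) ↪ Fin D) (T : Finset (Fin M)) (j : Fin D) :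
    JT (cw e) T j = if Odd #(T ∩ lab e j) then -1 else 1 := by
  rw [JT, Finset.prod_apply]
  simp only [cw]
  rw [Finset.prod_ite, Finset.prod_const, Finset.prod_const, one_pow, mul_one,
    Finset.filter_mem_eq_inter]
  split_ifs with h
  · exact h.neg_one_pow
  · exact (Nat.not_odd_iff_even.mp h).neg_one_pow

theorem neg_one_iff (e : Fin R × Finset (Fin M) ↪ Fin D) (T : Finset (Fin M)) (j : Fin D) :
    JT (cw e) T j = -1 ↔ Odd #(T ∩ lab e j) := by
  rw [JT_cw]
  split_ifs with h
  · simp [h]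
  · simp [h]

/-- half of the labels are odd on a nonempty set -/
theorem card_odd (T : Finset (Fin M)) (hT : T.Nonempty) :
    2 * #(Finset.univ.filter fun S : Finset (Fin M) => Odd #(T ∩ S)) = 2 ^ M := by
  obtain ⟨i, hi⟩ := hT
  have hflip : ∀ S : Finset (Fin M), (Odd #(T ∩ symmDiff S {i}) ↔ ¬ Odd #(T ∩ S)) := by
    intro S
    by_cases hS : i ∈ S
    · have h1 : T ∩ symmDiff S {i} = (T ∩ S).erase i := by
        ext x
        simp only [Finset.mem_inter, Finset.mem_symmDiff, Finset.mem_singleton, Finset.mem_erase]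
        constructor
        · rintro ⟨h1, h2 | h2⟩
          · exact ⟨h2.2, h1, h2.1⟩
          · exact absurd (h2.1 ▸ hS) h2.2
        · rintro ⟨h1, h2, h3⟩
          exact ⟨h2, Or.inl ⟨h3, h1⟩⟩
      have h2 : i ∈ T ∩ S := Finset.mem_inter.mpr ⟨hi, hS⟩
      rw [h1, Finset.card_erase_of_mem h2]
      have h3 : 0 < #(T ∩ S) := Finset.card_pos.mpr ⟨i, h2⟩
      rw [Nat.odd_sub' (by omega : 1 ≤ #(T ∩ S))]
      simp
    · have h1 : T ∩ symmDiff S {i} = insert i (T ∩ S) := by
        ext x
        simp only [Finset.mem_inter, Finset.mem_symmDiff, Finset.mem_singleton, Finset.mem_insert]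
        constructor
        · rintro ⟨h1, h2 | h2⟩
          · exact Or.inr ⟨h1, h2.1⟩
          · exact Or.inl h2.1
        · rintro (h1 | ⟨h1, h2⟩)
          · subst h1
            exact ⟨hi, Or.inr ⟨rfl, hS⟩⟩
          · refine ⟨h1, Or.inl ⟨h2, ?_⟩⟩
            rintro rfl
            exact hS h2
      have h2 : i ∉ T ∩ S := fun h => hS (Finset.mem_inter.mp h).2
      rw [h1, Finset.card_insert_of_notMem h2, Nat.odd_add_one]
  have hb : #(Finset.univ.filter fun S : Finset (Fin M) => Odd #(T ∩ S)) =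
      #(Finset.univ.filter fun S : Finset (Fin M) => ¬ Odd #(T ∩ S)) := by
    refine Finset.card_bij (fun S _ => symmDiff S {i}) ?_ ?_ ?_
    · intro S hS
      rw [Finset.mem_filter] at hS ⊢
      refine ⟨Finset.mem_univ _, ?_⟩
      rw [hflip]
      exact not_not.mpr hS.2
    · intro S _ S' _ h
      exact symmDiff_left_injective _ h
    · intro S hS
      rw [Finset.mem_filter] at hS
      refine ⟨symmDiff S {i}, ?_, ?_⟩
      · rw [Finset.mem_filter]
        exact ⟨Finset.mem_univ _, (hflip S).mpr hS.2⟩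
      · rw [symmDiff_symmDiff_cancel_right]
  have hs := Finset.card_filter_add_card_filter_not (s := (Finset.univ : Finset (Finset (Fin M))))
    (fun S : Finset (Fin M) => Odd #(T ∩ S))
  rw [Finset.card_univ, Fintype.card_finset, Fintype.card_fin] at hs
  omega

theorem card_neg (e : Fin R × Finset (Fin M) ↪ Fin D) (T : Finset (Fin M)) (hT : T.Nonempty) :
    2 * #(Finset.univ.filter fun j : Fin D => JT (cw e) T j = -1) = R * 2 ^ M := by
  have h1 : (Finset.univ.filter fun j : Fin D => JT (cw e) T j = -1) =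
      ((Finset.univ : Finset (Fin R)) ×ˢ
        (Finset.univ.filter fun S : Finset (Fin M) => Odd #(T ∩ S))).map e := by
    ext j
    simp only [neg_one_iff, Finset.mem_filter, Finset.mem_univ, true_and, Finset.mem_map,
      Finset.mem_product]
    constructor
    · intro h
      by_cases hp : ∃ p, e p = j
      · obtain ⟨p, rfl⟩ := hp
        rw [lab_apply] at h
        exact ⟨p, h, rfl⟩
      · rw [lab_of_notMem e hp] at h
        simp at h
    · rintro ⟨p, h, rfl⟩
      rwa [lab_apply]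
  rw [h1, Finset.card_map, Finset.card_product, Finset.card_univ, Fintype.card_fin,
    ← card_odd T hT]
  ring

/-- any two nontrivial code words are related by a permutation of the coordinates -/
theorem exists_perm (e : Fin R × Finset (Fin M) ↪ Fin D) (T T' : Finset (Fin M))
    (hT : T.Nonempty) (hT' : T'.Nonempty) :
    ∃ σ : Equiv.Perm (Fin D), (fun j => JT (cw e) T (σ j)) = JT (cw e) T' := by
  have hc : Fintype.card {j : Fin D // JT (cw e) T' j = -1} =
      Fintype.card {j : Fin D // JT (cw e) T j = -1} := by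
    rw [Fintype.card_subtype, Fintype.card_subtype]
    have h1 := card_neg e T hT
    have h2 := card_neg e T' hT'
    omega
  let f : {j : Fin D // JT (cw e) T' j = -1} ≃ {j : Fin D // JT (cw e) T j = -1} :=
    Fintype.equivOfCardEq hc
  refine ⟨f.extendSubtype, ?_⟩
  funext j
  by_cases h : JT (cw e) T' j = -1
  · rw [h]
    exact f.extendSubtype_mem j h
  · have h1 := f.extendSubtype_not_mem j h
    rw [(Int.units_eq_one_or _).resolve_right h, (Int.units_eq_one_or _).resolve_right h1]

theorem JT_cw_ne_one (hR : 0 < R) (e : Fin R × Finset (Fin M) ↪ Fin D) (T : Finset (Fin M))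
    (hT : T.Nonempty) : JT (cw e) T ≠ 1 := by
  obtain ⟨i, hi⟩ := hT
  intro h
  have h1 := congrFun h (e (⟨0, hR⟩, {i}))
  rw [JT_cw, lab_apply, Finset.inter_singleton_of_mem hi] at h1
  simp at h1

/-- many permutations fixing one code word and moving another one -/
theorem exists_moves (hR : 0 < R) (e : Fin R × Finset (Fin M) ↪ Fin D) (T B : Finset (Fin M))
    (hT : T.Nonempty) (hB : B.Nonempty) (hTB : T ≠ B) :
    ∃ σ : Fin R → Equiv.Perm (Fin D), (∀ ρ, (fun j => JT (cw e) T (σ ρ j)) = JT (cw e) T) ∧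
      Function.Injective fun ρ => (fun j => JT (cw e) B (σ ρ j)) := by
  obtain ⟨S₂, hS₂T, hS₂B⟩ := exists_sep B T hT (Ne.symm hTB)
  obtain ⟨S₀, hS₀B, hS₀T⟩ := exists_sep T B hB hTB
  -- both odd
  obtain ⟨S₁, hS₁T, hS₁B⟩ : ∃ S₁ : Finset (Fin M), Odd #(T ∩ S₁) ∧ Odd #(B ∩ S₁) := by
    by_cases h : (T ∩ B).Nonempty
    · obtain ⟨i, hi⟩ := h
      rw [Finset.mem_inter] at hi
      exact ⟨{i}, by rw [Finset.inter_singleton_of_mem hi.1]; simp,
        by rw [Finset.inter_singleton_of_mem hi.2]; simp⟩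
    · rw [Finset.not_nonempty_iff_eq_empty] at h
      obtain ⟨i, hi⟩ := hT
      obtain ⟨l, hl⟩ := hB
      have hiB : i ∉ B := fun hc => by
        have : i ∈ T ∩ B := Finset.mem_inter.mpr ⟨hi, hc⟩
        rw [h] at this
        simp at this
      have hlT : l ∉ T := fun hc => by
        have : l ∈ T ∩ B := Finset.mem_inter.mpr ⟨hc, hl⟩
        rw [h] at this
        simp at this
      refine ⟨{i, l}, ?_, ?_⟩
      · rw [Finset.inter_insert_of_mem hi, Finset.inter_singleton_of_notMem hlT]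
        simp
      · rw [Finset.inter_insert_of_notMem hiB, Finset.inter_singleton_of_mem hl]
        simp
  have hS₁₂ : S₁ ≠ S₂ := by
    rintro rfl
    exact hS₂B hS₁B
  set p₀ : Fin D := e (⟨0, hR⟩, S₂) with hp₀
  refine ⟨fun ρ => Equiv.swap (e (ρ, S₁)) p₀, ?_, ?_⟩
  · intro ρ
    funext j
    by_cases h : j = e (ρ, S₁)
    · subst h
      rw [Equiv.swap_apply_left, JT_cw, JT_cw, hp₀, lab_apply, lab_apply, if_pos hS₂T,
        if_pos hS₁T]
    · by_cases h' : j = p₀
      · subst h'
        rw [Equiv.swap_apply_right, JT_cw, JT_cw, hp₀, lab_apply, lab_apply, if_pos hS₂T,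
          if_pos hS₁T]
      · rw [Equiv.swap_apply_of_ne_of_ne h h']
  · intro ρ ρ' h
    by_contra hne
    have h1 := congrFun h (e (ρ, S₁))
    simp only at h1
    have h2 : e (ρ, S₁) ≠ e (ρ', S₁) := fun hc => hne (by
      have := e.injective hc
      exact (Prod.mk.inj this).1)
    have h3 : e (ρ, S₁) ≠ p₀ := fun hc => hS₁₂ (by
      have := e.injective hc
      exact (Prod.mk.inj this).2)
    rw [Equiv.swap_apply_left, Equiv.swap_apply_of_ne_of_ne h2 h3, JT_cw, JT_cw, hp₀,
      lab_apply, lab_apply, if_neg hS₂B, if_pos hS₁B] at h1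
    exact absurd h1 (by decide)

/-- independence of the code words -/
theorem exists_point (hR : 0 < R) (e : Fin R × Finset (Fin M) ↪ Fin D) (ω : Fin M → ℤˣ) :
    ∃ g : Fin D → ℤˣ, ∀ i, chi (cw e i) g = ω i := by
  classical
  refine ⟨fun j => ∏ i : Fin M, if j = e (⟨0, hR⟩, {i}) then ω i else 1, ?_⟩
  intro i
  rw [chi_eq]
  have h1 : ∀ j, (if cw e i j = -1 then ∏ i' : Fin M, (if j = e (⟨0, hR⟩, {i'}) then ω i' else 1)
      else 1) = ∏ i' : Fin M, if j = e (⟨0, hR⟩, {i'}) then (if i = i' then ω i' else 1) else 1 := by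
    intro j
    by_cases h : cw e i j = -1
    · rw [if_pos h]
      apply Finset.prod_congr rfl
      intro i' _
      by_cases h' : j = e (⟨0, hR⟩, {i'})
      · rw [if_pos h', if_pos h']
        have : i = i' := by
          rw [h'] at h
          simp only [cw, lab_apply, Finset.mem_singleton] at h
          by_contra hne
          rw [if_neg hne] at h
          exact absurd h (by decide)
        rw [if_pos this]
      · rw [if_neg h', if_neg h']
    · rw [if_neg h]
      symm
      apply Finset.prod_eq_one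
      intro i' _
      by_cases h' : j = e (⟨0, hR⟩, {i'})
      · rw [if_pos h']
        have : i ≠ i' := by
          rintro rfl
          apply h
          rw [h']
          simp [cw, lab_apply]
        rw [if_neg this]
      · rw [if_neg h']
  simp only [h1]
  rw [Finset.prod_comm]
  have h2 : ∀ i' : Fin M, (∏ j : Fin D, if j = e (⟨0, hR⟩, {i'}) then
      (if i = i' then ω i' else 1) else 1) = if i = i' then ω i' else 1 := by
    intro i'
    rw [Finset.prod_ite_eq' Finset.univ (e (⟨0, hR⟩, {i'}))]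
    simp
  simp only [h2]
  rw [Finset.prod_ite_eq]
  simp

end Code

section Est

variable {D M M' R : ℕ}

theorem chi_comp (J x : Fin D → ℤˣ) (σ : Equiv.Perm (Fin D)) :
    chi (fun j => J (σ j)) (fun j => x (σ j)) = chi J x := by
  rw [chi_eq, chi_eq]
  exact Equiv.prod_comp σ (fun i => if J i = -1 then x i else 1)

theorem Chi_comp (b x : Fin M' → Fin D → ℤˣ) (σ : Equiv.Perm (Fin D)) :
    Chi (fun k j => b k (σ j)) (fun k j => x k (σ j)) = Chi b x := by
  simp only [Chi, chi_comp]

/-- composition with a permutation, on the power of the cube -/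
def pe (σ : Equiv.Perm (Fin D)) : (Fin M' → Fin D → ℤˣ) ≃ (Fin M' → Fin D → ℤˣ) where
  toFun x k j := x k (σ j)
  invFun x k j := x k (σ.symm j)
  left_inv x := by
    funext k j
    simp
  right_inv x := by
    funext k j
    simp

/-- equivariant families -/
def Equivariant (n : (Fin M' → Fin D → ℤˣ) → (Fin M' → ℤˣ) → (Fin D → ℤˣ) → ℝ) : Prop :=
  ∀ (σ : Equiv.Perm (Fin D)) x δ J, n (fun k j => x k (σ j)) δ (fun j => J (σ j)) = n x δ J

variable {n : (Fin M' → Fin D → ℤˣ) → (Fin M' → ℤˣ) → (Fin D → ℤˣ) → ℝ}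

theorem gh_comp (hn : Equivariant n) (σ : Equiv.Perm (Fin D)) (J : Fin D → ℤˣ)
    (y : Fin M' → ℤˣ) (b : Fin M' → Fin D → ℤˣ) :
    gh n (fun j => J (σ j)) y (fun k j => b k (σ j)) = gh n J y b := by
  unfold gh
  rw [← avg_comp_equiv (pe σ)]
  apply avg_congr
  intro x
  have h1 : (pe σ) x = fun k j => x k (σ j) := rfl
  rw [h1, Chi_comp]
  simp only [chi_comp]
  rw [hn]

theorem hh_comp (hn : Equivariant n) (σ : Equiv.Perm (Fin D)) (J : Fin D → ℤˣ)
    (y : Fin M' → ℤˣ) : hh n (fun j => J (σ j)) y = hh n J y := by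
  unfold hh
  rw [← avg_comp_equiv (pe σ)]
  apply avg_congr
  intro x
  have h1 : (pe σ) x = fun k j => x k (σ j) := rfl
  rw [h1]
  simp only [chi_comp]
  rw [hn]

/-- the nontrivial even coefficients are small -/
theorem gh_small (hn : Equivariant n) {b : ℝ} (hb : ∀ x δ J, |n x δ J| ≤ b) (hR : 0 < R)
    (e : Fin R × Finset (Fin M) ↪ Fin D) (T : Finset (Fin M)) (hT : Odd #T)
    (B : Fin M' → Finset (Fin M)) (hB : ∀ k, Even #(B k)) (hB0 : ∃ k, B k ≠ ∅)
    (y : Fin M' → ℤˣ) :
    R * gh n (JT (cw e) T) y (fun k => JT (cw e) (B k)) ^ 2 ≤ b ^ 2 := by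
  obtain ⟨k₀, hk₀⟩ := hB0
  have hTn : T.Nonempty := by
    rw [← Finset.card_pos]
    exact hT.pos
  have hTB : T ≠ B k₀ := by
    rintro h
    rw [h] at hT
    exact (Nat.not_odd_iff_even.mpr (hB k₀)) hT
  obtain ⟨σ, hσ1, hσ2⟩ := exists_moves hR e T (B k₀) hTn (Finset.nonempty_iff_ne_empty.mpr hk₀) hTB
  set bb : Fin R → Fin M' → Fin D → ℤˣ := fun ρ k j => JT (cw e) (B k) (σ ρ j) with hbb
  have hinj : Function.Injective bb := by
    intro ρ ρ' h
    apply hσ2
    exact congrFun h k₀
  have hval : ∀ ρ, gh n (JT (cw e) T) y (bb ρ) =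
      gh n (JT (cw e) T) y (fun k => JT (cw e) (B k)) := by
    intro ρ
    have h1 := gh_comp hn (σ ρ) (JT (cw e) T) y (fun k => JT (cw e) (B k))
    rw [hσ1 ρ] at h1
    exact h1
  have hbes := bessel (fun ρ : Fin R => Chi (bb ρ)) (fun ρ ρ' => by
      rw [avg_Chi_mul_Chi]
      by_cases h : ρ = ρ'
      · rw [if_pos h, if_pos (by rw [h])]
      · rw [if_neg h, if_neg (fun hc => h (hinj hc))])
    (fun x => n x (fun k => y k * chi (JT (cw e) T) (x k)) (JT (cw e) T))
  have h2 : (avg fun x : Fin M' → Fin D → ℤˣ =>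
      n x (fun k => y k * chi (JT (cw e) T) (x k)) (JT (cw e) T) ^ 2) ≤ b ^ 2 := by
    have : (avg fun x : Fin M' → Fin D → ℤˣ =>
        n x (fun k => y k * chi (JT (cw e) T) (x k)) (JT (cw e) T) ^ 2) ≤
        avg fun _ : Fin M' → Fin D → ℤˣ => b ^ 2 := by
      apply avg_mono
      intro x
      rw [← sq_abs]
      have := hb x (fun k => y k * chi (JT (cw e) T) (x k)) (JT (cw e) T)
      gcongr
    rwa [avg_const] at this
  refine le_trans (le_of_eq ?_) (hbes.trans h2)
  have h3 : ∀ ρ : Fin R, (avg fun x => Chi (bb ρ) x *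
      n x (fun k => y k * chi (JT (cw e) T) (x k)) (JT (cw e) T)) =
      gh n (JT (cw e) T) y (fun k => JT (cw e) (B k)) := hval
  simp only [h3]
  rw [Finset.sum_const, Finset.card_univ, Fintype.card_fin, nsmul_eq_mul]

/-- The estimate for the simplex code. -/
theorem sym_estimate (hn : Equivariant n) {b : ℝ} (hb : ∀ x δ J, |n x δ J| ≤ b) (hR : 0 < R)
    (e : Fin R × Finset (Fin M) ↪ Fin D) (A : Fin M → Fin M' → ℤˣ) (T : Finset (Fin M))
    (hT : Odd #T) :
    |(avg fun δ : Fin M' → ℤˣ => avg fun x : Fin M' → Fin D → ℤˣ =>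
      WW (cw e) x (fun i k => A i k * δ k) * n x δ (JT (cw e) T)) -
        hh n (JT (cw e) T) (AT A T)| ≤ ((2 : ℝ) ^ M) ^ M' * (b / √R) := by
  have hb0 : 0 ≤ b := (abs_nonneg _).trans (hb 1 1 1)
  have hR' : (0:ℝ) < R := by exact_mod_cast hR
  rw [expansion n (cw e) A T hT]
  set P := Fintype.piFinset (fun _ : Fin M' => ev M) with hP
  have h0 : (fun _ : Fin M' => (∅ : Finset (Fin M))) ∈ P := by
    rw [hP, Fintype.mem_piFinset]
    intro k
    simp [ev]
  rw [← Finset.add_sum_erase P _ h0]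
  have h1 : (∏ k : Fin M', sg (AT A ((fun _ : Fin M' => (∅ : Finset (Fin M))) k) k)) *
      gh n (JT (cw e) T) (AT A T)
        (fun k => JT (cw e) ((fun _ : Fin M' => (∅ : Finset (Fin M))) k)) =
      hh n (JT (cw e) T) (AT A T) := by
    rw [← gh_one]
    have e1 : ∀ k : Fin M', sg (AT A (∅ : Finset (Fin M)) k) = 1 := by
      intro k
      simp [AT]
    have e2 : (fun _ : Fin M' => JT (cw e) (∅ : Finset (Fin M))) =
        (1 : Fin M' → Fin D → ℤˣ) := by
      funext k
      simp [JT]
    simp only [e1, e2]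
    simp
  rw [h1, add_sub_cancel_left]
  refine (Finset.abs_sum_le_sum_abs _ _).trans ?_
  have h2 : ∀ B ∈ P.erase (fun _ => ∅), |(∏ k : Fin M', sg (AT A (B k) k)) *
      gh n (JT (cw e) T) (AT A T) (fun k => JT (cw e) (B k))| ≤ b / √R := by
    intro B hB
    rw [Finset.mem_erase, hP, Fintype.mem_piFinset] at hB
    obtain ⟨hB1, hB2⟩ := hB
    rw [abs_mul, Finset.abs_prod]
    simp only [abs_sg, Finset.prod_const_one, one_mul]
    have h3 := gh_small hn hb hR e T hT B (fun k => by simpa [ev] using hB2 k) (by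
      by_contra hc
      push Not at hc
      exact hB1 (funext hc)) (AT A T)
    rw [le_div_iff₀ (Real.sqrt_pos.mpr hR')]
    apply le_of_sq_le_sq _ hb0
    rw [mul_pow, sq_abs, Real.sq_sqrt hR'.le, mul_comm]
    exact h3
  refine (Finset.sum_le_sum h2).trans ?_
  rw [Finset.sum_const, nsmul_eq_mul]
  apply mul_le_mul_of_nonneg_right _ (by positivity)
  have h3 : #(P.erase (fun _ => ∅)) ≤ (2 ^ M) ^ M' := by
    refine (Finset.card_erase_le).trans ?_
    rw [hP, Fintype.card_piFinset]
    simp only [Finset.prod_const, Finset.card_univ, Fintype.card_fin]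
    apply Nat.pow_le_pow_left
    refine (Finset.card_filter_le _ _).trans ?_
    simp
  exact_mod_cast h3

/-- all functions `h_{J_T}` are equal -/
theorem hh_eq (hn : Equivariant n) (e : Fin R × Finset (Fin M) ↪ Fin D) (T T' : Finset (Fin M))
    (hT : T.Nonempty) (hT' : T'.Nonempty) (y : Fin M' → ℤˣ) :
    hh n (JT (cw e) T) y = hh n (JT (cw e) T') y := by
  obtain ⟨σ, hσ⟩ := exists_perm e T T' hT hT'
  rw [← hσ, hh_comp hn]

/-- the weight is nonnegative -/
theorem WW_nonneg' (J : Fin M → Fin D → ℤˣ) (x : Fin M' → Fin D → ℤˣ)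
    (A : Fin M → Fin M' → ℤˣ) : 0 ≤ WW J x A := by
  unfold WW
  refine Finset.prod_nonneg fun i _ => Finset.prod_nonneg fun k _ => ?_
  rw [← sg_mul]
  have := abs_sg (A i k * chi (J i) (x k))
  have := neg_abs_le (sg (A i k * chi (J i) (x k)))
  linarith

/-- the weight has average one -/
theorem avg_WW' (J : Fin M → Fin D → ℤˣ) (hJ : ∀ T : Finset (Fin M), T.Nonempty → JT J T ≠ 1)
    (A : Fin M → Fin M' → ℤˣ) :
    (avg fun x : Fin M' → Fin D → ℤˣ => WW J x A) = 1 := by
  have h1 : ∀ x : Fin M' → Fin D → ℤˣ, WW J x A =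
      ∏ k, (fun (k : Fin M') (g : Fin D → ℤˣ) => ∏ i, (1 + sg (A i k) * sg (chi (J i) g))) k
        (x k) := by
    intro x
    unfold WW
    rw [Finset.prod_comm]
  simp only [h1]
  rw [avg_pi_prod (fun (k : Fin M') (g : Fin D → ℤˣ) =>
    ∏ i, (1 + sg (A i k) * sg (chi (J i) g)))]
  apply Finset.prod_eq_one
  intro k _
  have h2 : ∀ g : Fin D → ℤˣ, ∏ i, (1 + sg (A i k) * sg (chi (J i) g)) =
      ∑ T : Finset (Fin M), (∏ i ∈ T, sg (A i k)) * sg (chi (JT J T) g) := by
    intro g
    rw [Finset.prod_one_add]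
    apply Finset.sum_congr rfl
    intro T _
    rw [Finset.prod_mul_distrib, JT, chi_prod_left, H1.sg_prod]
  simp only [h2]
  rw [avg_sum]
  simp only [avg_mul_left, avg_chi]
  rw [Finset.sum_eq_single ∅]
  · simp [JT]
  · intro T _ hT
    rw [if_neg (hJ T (Finset.nonempty_iff_ne_empty.mpr hT)), mul_zero]
  · intro h
    exact absurd (Finset.mem_univ _) h

end Est

end Vale.Agent.P111.SY
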