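import Vale.Agent.P111.TK.Lift

/-! Lifts in arbitrary normed spaces whose dual has finite cotype. -/

namespace Vale.Agent.P111.SY

open Finset Vale.Agent.P111 Vale.Agent.P111.TK

variable {X : Type*} [NormedAddCommGroup X] [NormedSpace ℝ X] {m : ℕ}

theorem wc_const_sum (z : Fin m → X) (k : Fin m) :
    wc {k} (fun ε : Fin m → ℤˣ => ∑ i, sg (ε i) • z i) = z k := by
  have h1 : (fun ε : Fin m → ℤˣ => ∑ i, sg (ε i) • z i) = fun ε => ∑ i, walsh {i} ε • z i := by
    funext ε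
    simp only [walsh_singleton]
  rw [h1, wc]
  simp only [Finset.smul_sum]
  rw [avg_sum]
  have h2 : ∀ i, (avg fun ω : Fin m → ℤˣ => walsh {k} ω • walsh {i} ω • z i) =
      if ({k} : Finset (Fin m)) = {i} then z i else 0 := fun i => wc_walsh_smul {k} {i} (z i)
  rw [Finset.sum_congr rfl fun i _ => h2 i]
  simp

/-- approximate lifts -/
theorem lift_closure {r C b : ℝ} (hr : 2 ≤ r) (hC : 0 ≤ C) (hb : 0 ≤ b)
    (hX : CotypeWith r C (X →L[ℝ] ℝ)) (z : Fin m → X) (hz : ∀ k, ‖z k‖ ≤ b) {η : ℝ}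
    (hη : 0 < η) :
    ∃ Z : (Fin m → ℤˣ) → X, (∀ δ, ‖Z δ‖ ≤ 3 * C * b * (m : ℝ) ^ (1 - 1 / r)) ∧
      ∀ k, ‖wc {k} Z - z k‖ < η := by
  set β : ℝ := 3 * C * b * (m : ℝ) ^ (1 - 1 / r) with hβ
  have hβ0 : 0 ≤ β := by positivity
  set S : Set (Fin m → X) := {w | ∃ Z : (Fin m → ℤˣ) → X, (∀ δ, ‖Z δ‖ ≤ β) ∧
    ∀ k, wc {k} Z = w k} with hS
  have hconv : Convex ℝ S := by
    rintro w ⟨Z, hZ1, hZ2⟩ w' ⟨Z', hZ1', hZ2'⟩ s t hs ht hst
    refine ⟨fun δ => s • Z δ + t • Z' δ, fun δ => ?_, fun k => ?_⟩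
    · calc ‖s • Z δ + t • Z' δ‖ ≤ ‖s • Z δ‖ + ‖t • Z' δ‖ := norm_add_le _ _
        _ = s * ‖Z δ‖ + t * ‖Z' δ‖ := by
            rw [norm_smul, norm_smul, Real.norm_of_nonneg hs, Real.norm_of_nonneg ht]
        _ ≤ s * β + t * β := by
            have := hZ1 δ
            have := hZ1' δ
            gcongr
        _ = β := by rw [← add_mul, hst, one_mul]
    · rw [Pi.add_apply, Pi.smul_apply, Pi.smul_apply, ← hZ2 k, ← hZ2' k]
      simp only [wc, smul_add]
      rw [avg_add, ← avg_smul, ← avg_smul]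
      congr 1
      · exact avg_congr fun ω => smul_comm _ _ _
      · exact avg_congr fun ω => smul_comm _ _ _
  have hmem : z ∈ closure S := by
    by_contra hz'
    obtain ⟨f, u, hf1, hf2⟩ := geometric_hahn_banach_closed_point hconv.closure isClosed_closure hz'
    -- the functional in coordinates
    set φ : Fin m → X →L[ℝ] ℝ := fun k =>
      f.comp (ContinuousLinearMap.single ℝ (fun _ : Fin m => X) k) with hφ
    have hfφ : ∀ w : Fin m → X, f w = ∑ k, φ k (w k) := by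
      intro w
      have h1 : w = ∑ k, ContinuousLinearMap.single ℝ (fun _ : Fin m => X) k (w k) := by
        funext i
        rw [Finset.sum_apply]
        simp [ContinuousLinearMap.single_apply, Pi.single_apply]
      conv_lhs => rw [h1]
      rw [map_sum]
      rfl
    set ψ : (Fin m → ℤˣ) → X →L[ℝ] ℝ := fun δ => ∑ k, sg (δ k) • φ k with hψ
    have hfwc : ∀ Z : (Fin m → ℤˣ) → X, f (fun k => wc {k} Z) = avg fun δ => ψ δ (Z δ) := by
      intro Z
      rw [hfφ]
      have h1 : ∀ δ : Fin m → ℤˣ, ψ δ (Z δ) = ∑ k, φ k (walsh {k} δ • Z δ) := by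
        intro δ
        rw [hψ]
        simp only
        rw [_root_.sum_apply]
        refine Finset.sum_congr rfl fun k _ => ?_
        rw [_root_.smul_apply, map_smul, walsh_singleton]
      simp only [h1]
      rw [avg_sum]
      refine Finset.sum_congr rfl fun k _ => ?_
      exact Vale.Agent.P111.map_avg (φ k).toLinearMap _
    -- the supremum
    have hsup : ∀ s : ℝ, 0 < s → β * (avg fun δ => ‖ψ δ‖) - s ≤ u := by
      intro s hs
      have hch : ∀ δ : Fin m → ℤˣ, ∃ x : X, ‖x‖ ≤ β ∧ β * ‖ψ δ‖ - s ≤ ψ δ x := by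
        intro δ
        rcases hβ0.eq_or_lt with h0 | h0
        · exact ⟨0, by rw [norm_zero]; exact hβ0, by rw [← h0, map_zero, zero_mul]; linarith⟩
        · by_cases hn : ‖ψ δ‖ = 0
          · exact ⟨0, by rw [norm_zero]; exact hβ0, by rw [hn, map_zero, mul_zero]; linarith⟩
          · have hn' : 0 < ‖ψ δ‖ := lt_of_le_of_ne (norm_nonneg _) (Ne.symm hn)
            obtain ⟨x, hx1, hx2⟩ := (ψ δ).exists_lt_apply_of_lt_opNorm
              (r := ‖ψ δ‖ - s / β) (by
                have : 0 < s / β := by positivity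
                linarith)
            rw [Real.norm_eq_abs] at hx2
            rcases le_total 0 (ψ δ x) with h | h
            · refine ⟨β • x, ?_, ?_⟩
              · rw [norm_smul, Real.norm_of_nonneg hβ0]
                nlinarith
              · rw [map_smul, smul_eq_mul]
                rw [abs_of_nonneg h] at hx2
                have : β * (‖ψ δ‖ - s / β) ≤ β * ψ δ x := by nlinarith
                rw [mul_sub, mul_div_cancel₀ _ h0.ne'] at this
                exact this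
            · refine ⟨β • (-x), ?_, ?_⟩
              · rw [norm_smul, Real.norm_of_nonneg hβ0, norm_neg]
                nlinarith
              · rw [map_smul, smul_eq_mul, map_neg]
                rw [abs_of_nonpos h] at hx2
                have : β * (‖ψ δ‖ - s / β) ≤ β * -ψ δ x := by nlinarith
                rw [mul_sub, mul_div_cancel₀ _ h0.ne'] at this
                exact this
      choose Z hZ1 hZ2 using hch
      have h1 := hf1 (fun k => wc {k} Z) (subset_closure ⟨Z, hZ1, fun k => rfl⟩)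
      rw [hfwc] at h1
      refine le_trans ?_ h1.le
      have h2 : (avg fun δ => (β * ‖ψ δ‖ - s)) ≤ avg fun δ => ψ δ (Z δ) := avg_mono hZ2
      refine le_trans (le_of_eq ?_) h2
      rw [avg_sub, avg_mul_left, avg_const]
    have hle : β * (avg fun δ => ‖ψ δ‖) ≤ u := by
      apply le_of_forall_pos_le_add
      intro s hs
      have := hsup s hs
      linarith
    have h3 : f z ≤ β * avg fun δ => ‖ψ δ‖ := by
      rw [hfφ]
      calc ∑ k, φ k (z k) ≤ ∑ k, ‖φ k‖ * b := by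
            refine Finset.sum_le_sum fun k _ => ?_
            refine (le_abs_self _).trans (((φ k).le_opNorm (z k)).trans ?_)
            exact mul_le_mul_of_nonneg_left (hz k) (norm_nonneg _)
        _ = b * ∑ k, ‖φ k‖ := by rw [← Finset.sum_mul, mul_comm]
        _ ≤ b * (3 * C * (m : ℝ) ^ (1 - 1 / r) *
              avg fun ε : Fin m → ℤˣ => ‖∑ i, sg (ε i) • φ i‖) :=
            mul_le_mul_of_nonneg_left (sum_norm_le hr hC hX φ) hb
        _ = β * avg fun δ => ‖ψ δ‖ := by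
            rw [hβ]
            ring
    linarith
  obtain ⟨w, ⟨Z, hZ1, hZ2⟩, hw⟩ := Metric.mem_closure_iff.mp hmem η hη
  refine ⟨Z, hZ1, fun k => ?_⟩
  rw [hZ2 k, ← dist_eq_norm, dist_comm]
  exact lt_of_le_of_lt (dist_le_pi_dist z w k) hw

/-- exact odd lifts, with a slightly larger norm -/
theorem lift_gen {r C b : ℝ} (hr : 2 ≤ r) (hC : 0 ≤ C) (hb : 0 ≤ b)
    (hX : CotypeWith r C (X →L[ℝ] ℝ)) (z : Fin m → X) (hz : ∀ k, ‖z k‖ ≤ b) {η : ℝ}
    (hη : 0 < η) :
    ∃ Z : (Fin m → ℤˣ) → X, (∀ δ, ‖Z δ‖ ≤ 3 * C * b * (m : ℝ) ^ (1 - 1 / r) + η) ∧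
      (∀ δ, Z (-δ) = - Z δ) ∧ ∀ k, wc {k} Z = z k := by
  set β : ℝ := 3 * C * b * (m : ℝ) ^ (1 - 1 / r) with hβ
  obtain ⟨Z₁, hZ1, hZ2⟩ := lift_closure hr hC hb hX z hz (η := η / (m + 1)) (by positivity)
  set Z₂ : (Fin m → ℤˣ) → X := fun δ => Z₁ δ + ∑ i, sg (δ i) • (z i - wc {i} Z₁) with hZ₂
  have hZ₂n : ∀ δ, ‖Z₂ δ‖ ≤ β + η := by
    intro δ
    have h1 : ‖∑ i, sg (δ i) • (z i - wc {i} Z₁)‖ ≤ η := by
      calc ‖∑ i, sg (δ i) • (z i - wc {i} Z₁)‖ ≤ ∑ i, ‖sg (δ i) • (z i - wc {i} Z₁)‖ :=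
            norm_sum_le _ _
        _ ≤ ∑ _i : Fin m, η / (m + 1) := by
            refine Finset.sum_le_sum fun i _ => ?_
            rw [norm_smul, Real.norm_eq_abs, abs_sg, one_mul, norm_sub_rev]
            exact (hZ2 i).le
        _ = m * (η / (m + 1)) := by
            rw [Finset.sum_const, Finset.card_univ, Fintype.card_fin, nsmul_eq_mul]
        _ ≤ η := by
            have hm : (0:ℝ) ≤ m := Nat.cast_nonneg m
            rw [mul_div_assoc', div_le_iff₀ (by positivity)]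
            nlinarith
    exact (norm_add_le _ _).trans (add_le_add (hZ1 δ) h1)
  have hZ₂w : ∀ k, wc {k} Z₂ = z k := by
    intro k
    have h1 : wc {k} Z₂ = wc {k} Z₁ + wc {k} (fun ε : Fin m → ℤˣ =>
        ∑ i, sg (ε i) • (z i - wc {i} Z₁)) := by
      rw [hZ₂]
      simp only [wc, smul_add]
      exact avg_add _ _
    rw [h1, wc_const_sum]
    abel
  refine ⟨fun δ => (1 / 2 : ℝ) • (Z₂ δ - Z₂ (-δ)), ?_, ?_, ?_⟩
  · intro δ
    rw [norm_smul, Real.norm_eq_abs, abs_of_pos (by norm_num : (0:ℝ) < 1 / 2)]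
    have := norm_sub_le (Z₂ δ) (Z₂ (-δ))
    have h1 := hZ₂n δ
    have h2 := hZ₂n (-δ)
    linarith
  · intro δ
    simp only [neg_neg]
    rw [← smul_neg, neg_sub]
  · intro k
    have h1 : (wc {k} fun δ => Z₂ (-δ)) = - wc {k} Z₂ := by
      have h2 := wc_translate {k} Z₂ (-1 : Fin m → ℤˣ)
      have h3 : (fun ω : Fin m → ℤˣ => Z₂ (-1 * ω)) = fun δ => Z₂ (-δ) := by
        funext ω; rw [neg_one_mul]
      have h4 : walsh {k} (-1 : Fin m → ℤˣ) = -1 := by
        rw [walsh_singleton, Pi.neg_apply, Pi.one_apply, sg_neg_one]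
      rw [h3, h4, neg_one_smul] at h2
      exact h2
    have h5 : (wc {k} fun δ => (1 / 2 : ℝ) • (Z₂ δ - Z₂ (-δ))) =
        (1 / 2 : ℝ) • (wc {k} Z₂ - wc {k} fun δ => Z₂ (-δ)) := by
      simp only [wc]
      rw [← avg_sub, ← avg_smul]
      refine avg_congr fun ω => ?_
      rw [smul_comm, smul_sub]
    rw [h5, h1, hZ₂w k, sub_neg_eq_add, ← two_smul ℝ (z k), smul_smul]
    norm_num

end Vale.Agent.P111.SY
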