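import Vale.Agent.P111.SY.Key
import Vale.Agent.P111.SY.Lift
import Vale.Agent.P111.SY.Core

/-! Symmetric homogeneous norms on vector valued functions on the cube. -/

set_option linter.unusedSectionVars false

namespace Vale.Agent.P111.SY

open Finset Vale.Agent.P111 Vale.Agent.P111.TK

/-- The norm on `V`-valued functions on the cube is given by the linear isomorphism `e`. -/
structure Adm (C : ℝ) {D : ℕ} {V E : Type*} [NormedAddCommGroup V] [NormedSpace ℝ V]
    [NormedAddCommGroup E] [NormedSpace ℝ E] (e : E ≃ₗ[ℝ] ((Fin D → ℤˣ) → V)) : Prop where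
  sup_le : ∀ f x, ‖e f x‖ ≤ C * ‖f‖
  trans : ∀ (g : Fin D → ℤˣ) f, ‖e.symm (fun x => e f (g * x))‖ ≤ ‖f‖
  perm : ∀ (σ : Equiv.Perm (Fin D)) f, ‖e.symm (fun x => e f (fun j => x (σ j)))‖ ≤ ‖f‖
  char : ∀ (S : Finset (Fin D)) (v : V), ‖e.symm (fun x => walsh S x • v)‖ ≤ C * ‖v‖

section ulift

variable {D M : ℕ} {V E : Type*} [NormedAddCommGroup V] [NormedSpace ℝ V]
    [NormedAddCommGroup E] [NormedSpace ℝ E] {e : E ≃ₗ[ℝ] ((Fin D → ℤˣ) → V)} {C : ℝ}

theorem walsh_chi (J : Fin M → Fin D → ℤˣ) (T : Finset (Fin M)) (g : Fin D → ℤˣ) :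
    walsh T (fun i => chi (J i) g) = sg (chi (JT J T) g) := by
  rw [JT, chi_prod_left, H1.sg_prod, walsh]

theorem u_lift {r : ℝ} (hr : 2 ≤ r) (hC : 1 ≤ C) (he : Adm C e)
    (hE : CotypeWith r C (E →L[ℝ] ℝ)) (J : Fin M → Fin D → ℤˣ) (v₀ : V) (hv₀ : ‖v₀‖ = 1) :
    ∃ (c : Finset (Fin M) → V) (z : E), ‖z‖ ≤ 3 * C ^ 2 * (M : ℝ) ^ (1 - 1 / r) + 1 ∧
      (∀ y, e z y = ∑ T, sg (chi (JT J T) y) • c T) ∧ (∀ T, Even #T → c T = 0) ∧
      ∀ i, c {i} = v₀ := by
  obtain ⟨Z, hZ1, hZ2, hZ3⟩ := lift_gen (m := M) hr (by linarith) (by linarith : (0:ℝ) ≤ C) hE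
    (fun i => e.symm fun y => walsh (neg (J i)) y • v₀) (fun i => by
      have := he.char (neg (J i)) v₀
      rwa [hv₀, mul_one] at this) one_pos
  set c : Finset (Fin M) → V := fun T =>
    avg fun g : Fin D → ℤˣ => walsh T (fun i => chi (J i) g) • e (wc T Z) g with hc
  set z : E := avg fun g : Fin D → ℤˣ =>
    e.symm (fun y => e (Z fun i => chi (J i) g) (g * y)) with hz
  refine ⟨c, z, ?_, ?_, ?_, ?_⟩
  · rw [hz]
    refine (H1.norm_avg_le _).trans ?_
    have h1 : (avg fun g : Fin D → ℤˣ =>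
        ‖e.symm (fun y => e (Z fun i => chi (J i) g) (g * y))‖) ≤
        avg fun _ : Fin D → ℤˣ => (3 * C * C * (M : ℝ) ^ (1 - 1 / r) + 1) :=
      avg_mono fun g => (he.trans g _).trans (hZ1 _)
    rw [avg_const] at h1
    refine h1.trans (le_of_eq ?_)
    ring
  · intro y
    have h1 : e z y = avg fun g : Fin D → ℤˣ => e (Z fun i => chi (J i) g) (g * y) := by
      rw [hz]
      have h2 : e (avg fun g : Fin D → ℤˣ =>
          e.symm (fun y => e (Z fun i => chi (J i) g) (g * y))) =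
          avg fun g : Fin D → ℤˣ => fun y => e (Z fun i => chi (J i) g) (g * y) := by
        refine (Vale.Agent.P111.map_avg e.toLinearMap _).trans ?_
        refine avg_congr fun g => ?_
        exact e.apply_symm_apply _
      rw [h2]
      simp only [avg, Pi.smul_apply, Finset.sum_apply]
    rw [h1, ← avg_comp_equiv (Equiv.mulRight y)]
    have h3 : ∀ g : Fin D → ℤˣ, e (Z fun i => chi (J i) ((Equiv.mulRight y) g))
        ((Equiv.mulRight y) g * y) =
        ∑ T, sg (chi (JT J T) y) • (walsh T (fun i => chi (J i) g) • e (wc T Z) g) := by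
      intro g
      rw [Equiv.coe_mulRight]
      have h4 : g * y * y = g := by rw [mul_assoc, pi_mul_self, mul_one]
      have h5 : (fun i => chi (J i) (g * y)) =
          (fun i => chi (J i) g) * fun i => chi (J i) y := by
        funext i
        rw [Pi.mul_apply, chi_mul_right]
      rw [h4, h5]
      have h6 := sum_walsh_smul_wc Z ((fun i => chi (J i) g) * fun i => chi (J i) y)
      rw [← h6, map_sum, Finset.sum_apply]
      refine Finset.sum_congr rfl fun T _ => ?_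
      rw [map_smul, Pi.smul_apply, walsh_mul, walsh_chi J T y, smul_smul]
      congr 1
      ring
    simp only [h3]
    rw [avg_sum]
    refine Finset.sum_congr rfl fun T _ => ?_
    rw [avg_smul]
  · intro T hT
    have h1 : wc T Z = 0 := by
      have h2 := wc_translate T Z (-1 : Fin M → ℤˣ)
      have h3 : (fun ω : Fin M → ℤˣ => Z (-1 * ω)) = fun ω => - Z ω := by
        funext ω
        rw [neg_one_mul, hZ2]
      have h4 : walsh T (-1 : Fin M → ℤˣ) = 1 := by
        simp only [walsh, Pi.neg_apply, Pi.one_apply, sg_neg_one, Finset.prod_const]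
        exact hT.neg_one_pow
      rw [h3, h4, one_smul] at h2
      have h5 : wc T (fun ω => - Z ω) = - wc T Z := by
        simp only [wc, smul_neg]
        exact avg_neg _
      rw [h5] at h2
      have h6 : (2:ℝ) • wc T Z = 0 := by
        rw [two_smul]
        nth_rewrite 1 [← h2]
        exact neg_add_cancel _
      exact (smul_eq_zero.mp h6).resolve_left (by norm_num)
    simp only [hc, h1, map_zero, Pi.zero_apply, smul_zero]
    exact avg_zero
  · intro i
    simp only [hc, hZ3 i, e.apply_symm_apply, walsh_singleton]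
    have h1 : ∀ g : Fin D → ℤˣ, sg (chi (J i) g) • walsh (neg (J i)) g • v₀ = v₀ := by
      intro g
      rw [← sg_chi, smul_smul, sg_mul_self, one_smul]
    simp only [h1]
    exact avg_const _

end ulift

section vlift

variable {D M' : ℕ} {V E : Type*} [NormedAddCommGroup V] [NormedSpace ℝ V]
    [NormedAddCommGroup E] [NormedSpace ℝ E] {e : E ≃ₗ[ℝ] ((Fin D → ℤˣ) → V)} {C : ℝ}

/-- the functional `w₀ ∘ ev_x` -/
noncomputable def ev (_hC : 0 ≤ C) (he : Adm C e) (w₀ : V →L[ℝ] ℝ) (hw₀ : ‖w₀‖ ≤ 1)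
    (x : Fin D → ℤˣ) : E →L[ℝ] ℝ :=
  LinearMap.mkContinuous
    { toFun := fun f => w₀ (e f x)
      map_add' := fun f g => by rw [map_add, Pi.add_apply, map_add]
      map_smul' := fun s f => by rw [map_smul, Pi.smul_apply, map_smul, RingHom.id_apply] }
    C (fun f => by
      change ‖w₀ (e f x)‖ ≤ C * ‖f‖
      calc ‖w₀ (e f x)‖ ≤ ‖w₀‖ * ‖e f x‖ := w₀.le_opNorm _
        _ ≤ 1 * (C * ‖f‖) := mul_le_mul hw₀ (he.sup_le f x) (norm_nonneg _) zero_le_one
        _ = C * ‖f‖ := one_mul _)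

theorem ev_apply (hC : 0 ≤ C) (he : Adm C e) (w₀ : V →L[ℝ] ℝ) (hw₀ : ‖w₀‖ ≤ 1)
    (x : Fin D → ℤˣ) (f : E) : ev hC he w₀ hw₀ x f = w₀ (e f x) := rfl

/-- the symmetrised family -/
noncomputable def nn (e : E ≃ₗ[ℝ] ((Fin D → ℤˣ) → V))
    (ν : (Fin M' → Fin D → ℤˣ) → (Fin M' → ℤˣ) → (E →L[ℝ] ℝ)) (v : V)
    (x : Fin M' → Fin D → ℤˣ) (δ : Fin M' → ℤˣ) (J : Fin D → ℤˣ) : ℝ :=
  avg fun σ : Equiv.Perm (Fin D) => ν (fun k j => x k (σ j)) δ
    (e.symm fun y => sg (chi (fun j => J (σ j)) y) • v)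

variable (ν : (Fin M' → Fin D → ℤˣ) → (Fin M' → ℤˣ) → (E →L[ℝ] ℝ))

theorem nn_equivariant (v : V) : Equivariant (nn e ν v) := by
  intro τ x δ J
  unfold nn
  exact avg_comp_equiv (Equiv.mulLeft τ) (fun σ : Equiv.Perm (Fin D) =>
    ν (fun k j => x k (σ j)) δ (e.symm fun y => sg (chi (fun j => J (σ j)) y) • v))

theorem nn_le (he : Adm C e) {β : ℝ} (hν : ∀ x δ, ‖ν x δ‖ ≤ β) (v : V)
    (x : Fin M' → Fin D → ℤˣ) (δ : Fin M' → ℤˣ) (J : Fin D → ℤˣ) :
    |nn e ν v x δ J| ≤ β * (C * ‖v‖) := by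
  have hβ : 0 ≤ β := (norm_nonneg _).trans (hν x δ)
  unfold nn
  refine (abs_avg_le _).trans ?_
  have h1 : ∀ σ : Equiv.Perm (Fin D), |ν (fun k j => x k (σ j)) δ
      (e.symm fun y => sg (chi (fun j => J (σ j)) y) • v)| ≤ β * (C * ‖v‖) := by
    intro σ
    rw [← Real.norm_eq_abs]
    refine ((ν _ δ).le_opNorm _).trans ?_
    refine mul_le_mul (hν _ _) ?_ (norm_nonneg _) hβ
    simp only [sg_chi]
    exact he.char _ v
  refine (avg_mono h1).trans (le_of_eq ?_)
  exact avg_const _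

theorem nn_odd (hν : ∀ x δ, ν x (-δ) = - ν x δ) (v : V) (x : Fin M' → Fin D → ℤˣ)
    (δ : Fin M' → ℤˣ) (J : Fin D → ℤˣ) : nn e ν v x (-δ) J = - nn e ν v x δ J := by
  unfold nn
  rw [← avg_neg]
  refine avg_congr fun σ => ?_
  rw [hν]
  rfl

theorem nn_add (v v' : V) (x : Fin M' → Fin D → ℤˣ) (δ : Fin M' → ℤˣ) (J : Fin D → ℤˣ) :
    nn e ν (v + v') x δ J = nn e ν v x δ J + nn e ν v' x δ J := by
  unfold nn
  rw [← avg_add]
  refine avg_congr fun σ => ?_
  rw [← map_add, ← map_add]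
  congr 2
  funext y
  rw [Pi.add_apply, smul_add]

theorem nn_smul (s : ℝ) (v : V) (x : Fin M' → Fin D → ℤˣ) (δ : Fin M' → ℤˣ)
    (J : Fin D → ℤˣ) : nn e ν (s • v) x δ J = s * nn e ν v x δ J := by
  unfold nn
  rw [← avg_mul_left]
  refine avg_congr fun σ => ?_
  rw [← smul_eq_mul, ← map_smul, ← map_smul]
  congr 2
  funext y
  rw [Pi.smul_apply, smul_comm]

theorem nn_level (hC : 0 ≤ C) (he : Adm C e) (w₀ : V →L[ℝ] ℝ) (hw₀ : ‖w₀‖ ≤ 1)
    (hν : ∀ x k, wc {k} (ν x) = ev hC he w₀ hw₀ (x k)) (v : V) (x : Fin M' → Fin D → ℤˣ)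
    (J : Fin D → ℤˣ) (k : Fin M') :
    (avg fun δ : Fin M' → ℤˣ => sg (δ k) * nn e ν v x δ J) = sg (chi J (x k)) * w₀ v := by
  unfold nn
  have h1 : ∀ δ : Fin M' → ℤˣ, sg (δ k) * (avg fun σ : Equiv.Perm (Fin D) =>
      ν (fun k j => x k (σ j)) δ (e.symm fun y => sg (chi (fun j => J (σ j)) y) • v)) =
      avg fun σ : Equiv.Perm (Fin D) => sg (δ k) *
      ν (fun k j => x k (σ j)) δ (e.symm fun y => sg (chi (fun j => J (σ j)) y) • v) :=
    fun δ => (avg_mul_left _ _).symm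
  simp only [h1]
  rw [avg_comm]
  have h2 : ∀ σ : Equiv.Perm (Fin D), (avg fun δ : Fin M' → ℤˣ => sg (δ k) *
      ν (fun k j => x k (σ j)) δ (e.symm fun y => sg (chi (fun j => J (σ j)) y) • v)) =
      sg (chi J (x k)) * w₀ v := by
    intro σ
    have h3 := hν (fun k j => x k (σ j)) k
    have h4 := congrArg (fun φ : E →L[ℝ] ℝ =>
      φ (e.symm fun y => sg (chi (fun j => J (σ j)) y) • v)) h3
    simp only [ev_apply, e.apply_symm_apply, chi_comp, map_smul, smul_eq_mul] at h4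
    rw [← h4, wc, avg, avg, _root_.smul_apply, _root_.sum_apply]
    simp only [walsh_singleton, _root_.smul_apply, smul_eq_mul]
  simp only [h2]
  exact avg_const _

end vlift

section hfun

variable {D M' : ℕ} {V E : Type*} [NormedAddCommGroup V] [NormedSpace ℝ V]
    [NormedAddCommGroup E] [NormedSpace ℝ E] {e : E ≃ₗ[ℝ] ((Fin D → ℤˣ) → V)} {C : ℝ}
    (ν : (Fin M' → Fin D → ℤˣ) → (Fin M' → ℤˣ) → (E →L[ℝ] ℝ)) (J : Fin D → ℤˣ)

theorem h_add (v v' : V) (y : Fin M' → ℤˣ) :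
    hh (nn e ν (v + v')) J y = hh (nn e ν v) J y + hh (nn e ν v') J y := by
  unfold hh
  rw [← avg_add]
  exact avg_congr fun x => nn_add ν v v' _ _ _

theorem h_smul (s : ℝ) (v : V) (y : Fin M' → ℤˣ) :
    hh (nn e ν (s • v)) J y = s * hh (nn e ν v) J y := by
  unfold hh
  rw [← avg_mul_left]
  exact avg_congr fun x => nn_smul ν s v _ _ _

theorem h_zero (y : Fin M' → ℤˣ) : hh (nn e ν (0 : V)) J y = 0 := by
  have := h_smul (e := e) ν J 0 (0 : V) y
  rwa [zero_smul, zero_mul] at this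

theorem h_sum {ι : Type*} (s : Finset ι) (v : ι → V) (y : Fin M' → ℤˣ) :
    hh (nn e ν (∑ i ∈ s, v i)) J y = ∑ i ∈ s, hh (nn e ν (v i)) J y := by
  classical
  induction s using Finset.induction_on with
  | empty => simp [h_zero]
  | insert a s ha ih => rw [Finset.sum_insert ha, Finset.sum_insert ha, h_add, ih]

theorem h_le (he : Adm C e) {β : ℝ} (hν : ∀ x δ, ‖ν x δ‖ ≤ β) (v : V) (y : Fin M' → ℤˣ) :
    |hh (nn e ν v) J y| ≤ β * (C * ‖v‖) := by
  unfold hh
  refine (abs_avg_le _).trans ?_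
  refine (avg_mono fun x => nn_le ν he hν v _ _ _).trans (le_of_eq ?_)
  exact avg_const _

theorem h_odd (hν : ∀ x δ, ν x (-δ) = - ν x δ) (v : V) (y : Fin M' → ℤˣ) :
    hh (nn e ν v) J (-y) = - hh (nn e ν v) J y := by
  unfold hh
  rw [← avg_neg]
  refine avg_congr fun x => ?_
  have h1 : (fun k => (-y) k * chi J (x k)) = -(fun k => y k * chi J (x k)) := by
    funext k
    simp
  rw [h1, nn_odd ν hν]

theorem h_level (hC : 0 ≤ C) (he : Adm C e) (w₀ : V →L[ℝ] ℝ) (hw₀ : ‖w₀‖ ≤ 1)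
    (hν : ∀ x k, wc {k} (ν x) = ev hC he w₀ hw₀ (x k)) (v : V) (k : Fin M') :
    wc {k} (hh (nn e ν v) J) = w₀ v := by
  rw [wc]
  simp only [walsh_singleton, smul_eq_mul]
  unfold hh
  simp only [← avg_mul_left]
  rw [avg_comm]
  have h1 : ∀ x : Fin M' → Fin D → ℤˣ, (avg fun y : Fin M' → ℤˣ =>
      sg (y k) * nn e ν v x (fun k => y k * chi J (x k)) J) = w₀ v := by
    intro x
    rw [← avg_comp_equiv (Equiv.mulRight (fun k => chi J (x k)))]
    have h2 : ∀ y : Fin M' → ℤˣ, sg ((Equiv.mulRight (fun k => chi J (x k))) y k) *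
        nn e ν v x (fun k' => (Equiv.mulRight (fun k => chi J (x k))) y k' * chi J (x k')) J =
        sg (chi J (x k)) * (sg (y k) * nn e ν v x y J) := by
      intro y
      have h3 : (fun k' => (Equiv.mulRight (fun k => chi J (x k))) y k' * chi J (x k')) = y := by
        funext k'
        change y k' * chi J (x k') * chi J (x k') = y k'
        rw [mul_assoc, Int.units_mul_self, mul_one]
      have h4 : (Equiv.mulRight (fun k => chi J (x k))) y k = y k * chi J (x k) := rfl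
      rw [h3, h4, sg_mul]
      ring
    simp only [h2]
    rw [avg_mul_left, nn_level ν hC he w₀ hw₀ hν, ← mul_assoc, sg_mul_self, one_mul]
  simp only [h1]
  exact avg_const _

end hfun

end Vale.Agent.P111.SY
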