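import Vale.Agent.P111.QL.Defs
import Mathlib.Topology.ContinuousMap.Compact

/-! Definitions used in the statement of the hand-in `SymmetricVectorValued`. -/

namespace Vale.Agent.P111.SYM

open Vale.Agent.P111

/-- The norm of `E`, read on the `V`-valued functions on `{-1,1}^D` by means of `e`, dominates the
supremum norm, is invariant under translations and under permutations of the coordinates, and the
characters are bounded. -/
structure SymNorm (C : ℝ) {D : ℕ} {V E : Type*} [NormedAddCommGroup V] [NormedSpace ℝ V]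
    [NormedAddCommGroup E] [NormedSpace ℝ E] (e : E ≃ₗ[ℝ] ((Fin D → ℤˣ) → V)) : Prop where
  sup_le : ∀ f x, ‖e f x‖ ≤ C * ‖f‖
  trans : ∀ f g, ‖e.symm (fun x => e f (x * g))‖ ≤ ‖f‖
  perm : ∀ f (σ : Equiv.Perm (Fin D)), ‖e.symm (fun x => e f (x ∘ σ))‖ ≤ ‖f‖
  char : ∀ (S : Finset (Fin D)) (v : V), ‖e.symm (fun x => (∏ i ∈ S, sg (x i)) • v)‖ ≤ C * ‖v‖

/-- `E` is a space of continuous `V`-valued functions on the Cantor group `{-1,1}^ℕ` (embedded by
`e`), on which the translations `τ g` act isometrically and strongly continuously and the finite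
permutations of the coordinates act as contractions; `w S v` is the function `w_S v`. -/
structure SymHom (B : ℝ) {V E : Type*} [NormedAddCommGroup V] [NormedSpace ℝ V]
    [NormedAddCommGroup E] [NormedSpace ℝ E] (e : E →L[ℝ] C(ℕ → ℤˣ, V))
    (τ : (ℕ → ℤˣ) → E → E) (w : Finset ℕ → V → E) : Prop where
  inj : Function.Injective e
  trans : ∀ g f x, e (τ g f) x = e f (x * g)
  norm : ∀ g f, ‖τ g f‖ = ‖f‖
  cont : ∀ f, Continuous fun g => τ g f
  perm : ∀ (s : Equiv.Perm ℕ) (f : E), (∃ N, ∀ i ≥ N, s i = i) →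
    ∃ f' : E, ‖f'‖ ≤ ‖f‖ ∧ ∀ x, e f' x = e f (x ∘ s)
  char : ∀ S v x, e (w S v) x = (∏ i ∈ S, sg (x i)) • v
  bdd : ∀ S v, ‖w S v‖ ≤ B * ‖v‖

end Vale.Agent.P111.SYM
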